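import Vale.Agent.P154.Q4.Cert

/-!
# Vectors over monomial symmetric functions

Sparse vectors carry integer coefficients; dense vectors of natural numbers are packed into one
number. Multiplying by the sum of the variables bumps one exponent at a time.
-/

namespace Vale.Agent.P154.Q4

/-- An exponent. -/
structure Key where
  a : ℕ
  b : ℕ
  c : ℕ
  d : ℕ

/-- Equality test. -/
def Key.eqb (k l : Key) : Bool := k.a == l.a && k.b == l.b && k.c == l.c && k.d == l.d

theorem Key.eq_of_eqb {k l : Key} (h : k.eqb l = true) : k = l := by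
  simp only [Key.eqb, Bool.and_eq_true, beq_iff_eq] at h
  obtain ⟨⟨⟨h1, h2⟩, h3⟩, h4⟩ := h
  cases k; cases l; simp_all

/-- The total degree. -/
def Key.deg (k : Key) : ℕ := k.a + k.b + k.c + k.d

/-- The symmetric sum of a key. -/
def Key.sym {R : Type} [CommSemiring R] (k : Key) (x : Fin 4 → R) : R := symSum x k.a k.b k.c k.d

/-- The expression of a key. -/
def Key.pe (k : Key) : PE := .sym k.a k.b k.c k.d

theorem symSum_perm {R : Type} [CommSemiring R] (x : Fin 4 → R) (e : Equiv.Perm (Fin 4))
    (m : Fin 4 → ℕ) :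
    symSum x (m (e 0)) (m (e 1)) (m (e 2)) (m (e 3)) = symSum x (m 0) (m 1) (m 2) (m 3) := by
  have h : ∀ m : Fin 4 → ℕ, symSum x (m 0) (m 1) (m 2) (m 3) =
      ∑ σ : Equiv.Perm (Fin 4), ∏ i, x (σ i) ^ m i := fun m => by
    rw [symSum, ← sum_perms]
    exact Finset.sum_congr rfl fun σ _ => by rw [Fin.prod_univ_four]; ring
  have h2 := Equiv.sum_comp (Equiv.mulRight e) fun σ : Equiv.Perm (Fin 4) => ∏ i, x (σ i) ^ m (e i)
  refine (h fun i => m (e i)).trans (h2.symm.trans ?_)
  rw [h m]
  exact Finset.sum_congr rfl fun σ _ => Equiv.prod_comp e fun j => x (σ j) ^ m j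

theorem symSum_swap01 {R : Type} [CommSemiring R] (x : Fin 4 → R) (a b c d : ℕ) :
    symSum x b a c d = symSum x a b c d := by
  simpa [Equiv.swap_apply_def] using symSum_perm x (Equiv.swap 0 1) ![a, b, c, d]

theorem symSum_swap12 {R : Type} [CommSemiring R] (x : Fin 4 → R) (a b c d : ℕ) :
    symSum x a c b d = symSum x a b c d := by
  simpa [Equiv.swap_apply_def] using symSum_perm x (Equiv.swap 1 2) ![a, b, c, d]

theorem symSum_swap23 {R : Type} [CommSemiring R] (x : Fin 4 → R) (a b c d : ℕ) :
    symSum x a b d c = symSum x a b c d := by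
  simpa [Equiv.swap_apply_def] using symSum_perm x (Equiv.swap 2 3) ![a, b, c, d]

/-- Order the first two exponents. -/
def Key.s01 (k : Key) : Key := if k.a < k.b then ⟨k.b, k.a, k.c, k.d⟩ else k
/-- Order the middle exponents. -/
def Key.s12 (k : Key) : Key := if k.b < k.c then ⟨k.a, k.c, k.b, k.d⟩ else k
/-- Order the last two exponents. -/
def Key.s23 (k : Key) : Key := if k.c < k.d then ⟨k.a, k.b, k.d, k.c⟩ else k

theorem Key.sym_s01 {R : Type} [CommSemiring R] (k : Key) (x : Fin 4 → R) :
    k.s01.sym x = k.sym x := by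
  unfold Key.s01; split <;> [exact symSum_swap01 x _ _ _ _; rfl]
theorem Key.sym_s12 {R : Type} [CommSemiring R] (k : Key) (x : Fin 4 → R) :
    k.s12.sym x = k.sym x := by
  unfold Key.s12; split <;> [exact symSum_swap12 x _ _ _ _; rfl]
theorem Key.sym_s23 {R : Type} [CommSemiring R] (k : Key) (x : Fin 4 → R) :
    k.s23.sym x = k.sym x := by
  unfold Key.s23; split <;> [exact symSum_swap23 x _ _ _ _; rfl]

/-- One more of the exponent in place `i`, reordered. -/
def Key.bumps (k : Key) : List Key :=
  [⟨k.a + 1, k.b, k.c, k.d⟩, (Key.mk k.a (k.b + 1) k.c k.d).s01,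
    (Key.mk k.a k.b (k.c + 1) k.d).s12.s01, (Key.mk k.a k.b k.c (k.d + 1)).s23.s12.s01]

theorem Key.sym_mul_sum (k : Key) (x : Fin 4 → ℝ) :
    k.sym x * (x 0 + x 1 + x 2 + x 3) = (k.bumps.map fun l => l.sym x).sum := by
  simp only [Key.bumps, List.map_cons, List.map_nil, List.sum_cons, List.sum_nil, Key.sym_s01,
    Key.sym_s12, Key.sym_s23]
  simp only [Key.sym, symSum, perms, Matrix.cons_val, List.map_cons, List.map_nil, List.sum_cons,
    List.sum_nil]
  ring

/-- Sparse vectors. -/
abbrev SV := List (Key × ℤ)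

/-- Value of a sparse vector. -/
def svVal (L : SV) (x : Fin 4 → ℝ) : ℝ := (L.map fun e => (e.2 : ℝ) * e.1.sym x).sum

/-- Add one entry. -/
def svAdd (k : Key) (c : ℤ) : SV → SV
  | [] => [(k, c)]
  | e :: r => if e.1.eqb k then (e.1, e.2 + c) :: r else e :: svAdd k c r

theorem svVal_add (k : Key) (c : ℤ) (x : Fin 4 → ℝ) :
    ∀ L, svVal (svAdd k c L) x = (c : ℝ) * k.sym x + svVal L x
  | [] => by simp [svAdd, svVal]
  | e :: r => by
    unfold svAdd
    split
    · next h =>
      obtain rfl := Key.eq_of_eqb h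
      simp [svVal]; ring
    · simp only [svVal, List.map_cons, List.sum_cons]
      have := svVal_add k c x r
      simp only [svVal] at this
      rw [this]; ring

/-- Multiplication by the sum of the variables. -/
def svLift : SV → SV
  | [] => []
  | e :: r => e.1.bumps.foldr (fun k L => svAdd k e.2 L) (svLift r)

theorem svVal_lift (x : Fin 4 → ℝ) :
    ∀ L, svVal (svLift L) x = (x 0 + x 1 + x 2 + x 3) * svVal L x
  | [] => by simp [svLift, svVal]
  | e :: r => by
    have h : ∀ (ks : List Key) (L : SV), svVal (ks.foldr (fun k L => svAdd k e.2 L) L) x =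
        (e.2 : ℝ) * (ks.map fun l => l.sym x).sum + svVal L x := fun ks L => by
      induction ks with
      | nil => simp
      | cons k ks ih => simp only [List.foldr_cons, svVal_add, ih, List.map_cons, List.sum_cons]; ring
    rw [svLift, h, svVal_lift x r, ← Key.sym_mul_sum]
    simp [svVal]; ring

/-- `∑ⱼ z.get j • lift^j L`, the degrees kept apart. -/
def svPoly : List ℤ → SV → SV
  | [], _ => []
  | z :: zs, L => L.map (fun e => (e.1, z * e.2)) ++ svPoly zs (svLift L)

/-- Real polynomial from its coefficients. -/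
def poly : List ℤ → ℝ → ℝ
  | [], _ => 0
  | z :: zs, s => z + s * poly zs s

theorem svVal_poly (x : Fin 4 → ℝ) : ∀ (zs : List ℤ) (L : SV),
    svVal (svPoly zs L) x = poly zs (x 0 + x 1 + x 2 + x 3) * svVal L x
  | [], L => by simp [svPoly, svVal, poly]
  | z :: zs, L => by
    have h := svVal_poly x zs (svLift L)
    have h2 : svVal (L.map fun e => (e.1, z * e.2)) x = z * svVal L x := by
      simp only [svVal, List.map_map, ← List.sum_map_mul_left, Function.comp_def]
      exact congrArg List.sum (List.map_congr_left fun e _ => by push_cast; ring)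
    simp only [svPoly, poly]
    rw [show svVal (L.map (fun e => (e.1, z * e.2)) ++ svPoly zs (svLift L)) x =
      svVal (L.map fun e => (e.1, z * e.2)) x + svVal (svPoly zs (svLift L)) x by simp [svVal],
      h, h2, svVal_lift]
    ring

theorem svVal_append (L M : SV) (x : Fin 4 → ℝ) : svVal (L ++ M) x = svVal L x + svVal M x := by
  simp [svVal]

theorem Key.sum_perm_mul (k : Key) (u v : Fin 4 → ℝ) :
    ∑ σ : Equiv.Perm (Fin 4), k.sym (fun i => u i * v (σ i)) = k.sym u * k.sym v := by
  have h : ∀ x : Fin 4 → ℝ, k.sym x =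
      ∑ τ : Equiv.Perm (Fin 4), ∏ i, x (τ i) ^ ![k.a, k.b, k.c, k.d] i := fun x => by
    rw [Key.sym, symSum, ← sum_perms]
    exact Finset.sum_congr rfl fun σ _ => by
      simp only [Fin.prod_univ_four, Matrix.cons_val]; ring
  simp only [h, Finset.sum_mul]
  rw [Finset.sum_comm]
  refine Finset.sum_congr rfl fun τ _ => ?_
  rw [Finset.mul_sum, ← Equiv.sum_comp (Equiv.mulRight τ⁻¹)]
  refine Finset.sum_congr rfl fun σ _ => ?_
  rw [← Finset.prod_mul_distrib]
  exact Finset.prod_congr rfl fun i _ => by simp [mul_pow]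

theorem sum_perm_svVal (L : SV) (u v : Fin 4 → ℝ) :
    ∑ σ : Equiv.Perm (Fin 4), svVal L (fun i => u i * v (σ i)) =
      (L.map fun e => (e.2 : ℝ) * (e.1.sym u * e.1.sym v)).sum := by
  induction L with
  | nil => simp [svVal]
  | cons e r ih =>
    simp only [svVal, List.map_cons, List.sum_cons] at ih ⊢
    rw [Finset.sum_add_distrib, ← Finset.mul_sum, Key.sum_perm_mul, ih]

/-- Value of a packed vector. -/
def vVal (B : ℕ) : List Key → ℕ → (Fin 4 → ℝ) → ℝ
  | [], _, _ => 0
  | k :: ks, n, x => (n % B : ℕ) * k.sym x + vVal B ks (n / B) x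

/-- All digits below `m`, nothing beyond. -/
def vSmall (B m : ℕ) : List Key → ℕ → Bool
  | [], n => n == 0
  | _ :: ks, n => decide (n % B < m) && vSmall B m ks (n / B)

/-- A combination of packed vectors. -/
def comb : List (ℕ × ℕ) → ℕ
  | [] => 0
  | e :: r => e.1 * e.2 + comb r

theorem vVal_comb {B m : ℕ} (x : Fin 4 → ℝ) : ∀ (ks : List Key) (L : List (ℕ × ℕ)),
    (∀ e ∈ L, vSmall B m ks e.2 = true) → (L.map Prod.fst).sum * m < B →
    vVal B ks (comb L) x = (L.map fun e => (e.1 : ℝ) * vVal B ks e.2 x).sum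
  | [], L, _, _ => by simp [vVal]
  | k :: ks, L, hs, hb => by
    have hB : 0 < B := lt_of_le_of_lt (Nat.zero_le _) hb
    have hs' : ∀ e ∈ L, e.2 % B < m ∧ vSmall B m ks (e.2 / B) = true := fun e he => by
      simpa [vSmall] using hs e he
    have hsplit : comb L = (L.map fun e => e.1 * (e.2 % B)).sum +
        B * comb (L.map fun e => (e.1, e.2 / B)) := by
      clear hs hb hs'
      induction L with
      | nil => simp [comb]
      | cons e r ih =>
        simp only [comb, List.map_cons, List.sum_cons, ih]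
        conv_lhs => rw [← Nat.mod_add_div e.2 B]
        ring
    have hlow : (L.map fun e => e.1 * (e.2 % B)).sum < B := lt_of_le_of_lt (by
      rw [← List.sum_map_mul_right]
      exact List.sum_le_sum fun e he => Nat.mul_le_mul_left _ (hs' e he).1.le) hb
    have e1 : comb L % B = (L.map fun e => e.1 * (e.2 % B)).sum := by
      rw [hsplit, Nat.add_mul_mod_self_left, Nat.mod_eq_of_lt hlow]
    have e2 : comb L / B = comb (L.map fun e => (e.1, e.2 / B)) := by
      rw [hsplit, Nat.add_mul_div_left _ _ hB, Nat.div_eq_of_lt hlow, Nat.zero_add]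
    have ih := vVal_comb x ks (L.map fun e => (e.1, e.2 / B))
      (fun e he => by
        obtain ⟨e', he', rfl⟩ := List.mem_map.1 he
        exact (hs' e' he').2)
      (by simpa [List.map_map, Function.comp_def] using hb)
    simp only [vVal, e1, e2, ih, List.map_map, Function.comp_def, Nat.cast_list_sum, Nat.cast_mul,
      ← List.sum_map_mul_right, ← List.sum_map_add]
    exact congrArg List.sum (List.map_congr_left fun e _ => by ring)

/-- Pack a list. -/
def packList (B : ℕ) : List ℕ → ℕ
  | [] => 0
  | a :: r => a + B * packList B r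

theorem vVal_packList {B m : ℕ} (x : Fin 4 → ℝ) : ∀ (ks : List Key) (l : List ℕ),
    vSmall B m ks (packList B l) = true → (∀ a ∈ l, a < B) →
    vVal B ks (packList B l) x = dotR l (ks.map fun k => k.sym x)
  | [], [], _, _ => rfl
  | [], _ :: _, _, _ => by simp [vVal, dotR]
  | k :: ks, [], _, _ => by
    have h0 : ∀ ks : List Key, vVal B ks 0 x = 0 := fun ks => by
      induction ks with
      | nil => rfl
      | cons k ks ih => simp [vVal, ih]
    simp [packList, h0, dotR]
  | k :: ks, a :: l, h, hl => by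
    have ha := hl a (by simp)
    have hB : 0 < B := lt_of_le_of_lt (Nat.zero_le _) ha
    simp only [vSmall, Bool.and_eq_true] at h
    simp only [packList, Nat.add_mul_div_left _ _ hB, Nat.div_eq_of_lt ha, Nat.zero_add] at h
    simp only [packList, vVal, List.map_cons, dotR, Nat.add_mul_mod_self_left,
      Nat.mod_eq_of_lt ha, Nat.add_mul_div_left _ _ hB, Nat.div_eq_of_lt ha, Nat.zero_add]
    rw [vVal_packList x ks l h.2 fun b hb => hl b (by simp [hb])]

end Vale.Agent.P154.Q4
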