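import Vale.Agent.P154.Q4.Runs

/-!
# Nonnegativity of bilinear forms on products of cells

A form `∑ A(u) (P - N) · B(v)` is nonnegative on a pair of cells when all its coefficients in the
coordinates of the cells are. A row of coefficients is a single packed number.
-/

namespace Vale.Agent.P154.Q4

/-- Inner product. -/
def dot : List ℕ → List ℕ → ℕ
  | a :: as, b :: bs => a * b + dot as bs
  | _, _ => 0

/-- Inner product with real values. -/
def dotR : List ℕ → List ℝ → ℝ
  | a :: as, b :: bs => a * b + dotR as bs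
  | _, _ => 0

/-- One row of a bilinear form. -/
structure Row where
  A : PE
  P : List ℕ
  N : List ℕ

/-- Real value of a bilinear form. -/
def formVal (K : List Row) (Bs : List PE) (u v : Fin 4 → ℝ) : ℝ :=
  (K.map fun k => k.A.ev u *
    (dotR k.P (Bs.map fun e => e.ev v) - dotR k.N (Bs.map fun e => e.ev v))).sum

section dots
variable {α : Type}

theorem dot_map (f g : α → ℕ) :
    ∀ K : List α, dot (K.map f) (K.map g) = (K.map fun k => f k * g k).sum
  | [] => rfl
  | k :: K => by simp [dot, dot_map f g K]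

theorem dot_mono {f g : α → ℕ} : ∀ (r : List ℕ) (l : List α), (∀ e ∈ l, f e ≤ g e) →
    dot r (l.map f) ≤ dot r (l.map g)
  | [], _, _ => le_rfl
  | _ :: _, [], _ => le_rfl
  | a :: r, e :: l, h => Nat.add_le_add (Nat.mul_le_mul_left a (h e (by simp)))
      (dot_mono r l fun x hx => h x (by simp [hx]))

theorem dot_sum (s : Finset ℕ) (f : α → ℕ → ℕ) : ∀ (r : List ℕ) (l : List α),
    dot r (l.map fun e => ∑ j ∈ s, f e j) = ∑ j ∈ s, dot r (l.map fun e => f e j)
  | [], _ => by simp [dot]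
  | _ :: _, [] => by simp [dot]
  | a :: r, e :: l => by simp [dot, Finset.sum_add_distrib, Finset.mul_sum, dot_sum s f r l]

theorem dot_mul_right (f : α → ℕ) (c : ℕ) : ∀ (r : List ℕ) (l : List α),
    dot r (l.map fun e => f e * c) = dot r (l.map f) * c
  | [], _ => by simp [dot]
  | _ :: _, [] => by simp [dot]
  | a :: r, e :: l => by
    simp only [List.map_cons, dot, dot_mul_right f c r l]; ring

theorem dotR_sum (s : Finset ℕ) (f : α → ℕ → ℕ) (g : ℕ → ℝ) : ∀ (r : List ℕ) (l : List α),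
    dotR r (l.map fun e => ∑ j ∈ s, (f e j : ℝ) * g j) =
      ∑ j ∈ s, (dot r (l.map fun e => f e j) : ℝ) * g j
  | [], _ => by simp [dot, dotR]
  | _ :: _, [] => by simp [dot, dotR]
  | a :: r, e :: l => by
    simp only [List.map_cons, dot, dotR, dotR_sum s f g r l, Nat.cast_add, Nat.cast_mul,
      Finset.mul_sum, ← Finset.sum_add_distrib]
    exact Finset.sum_congr rfl fun j _ => by ring

end dots

theorem sum_comm_list {α M : Type} [AddCommMonoid M] (s : Finset ℕ) (f : α → ℕ → M) :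
    ∀ K : List α, (K.map fun k => ∑ i ∈ s, f k i).sum = ∑ i ∈ s, (K.map fun k => f k i).sum
  | [] => by simp
  | k :: K => by simp [sum_comm_list s f K, Finset.sum_add_distrib]

/-- Inner product, through the recursor. -/
noncomputable def dotK (r : List ℕ) : List ℕ → ℕ :=
  List.rec (motive := fun _ => List ℕ → ℕ) (fun _ => 0)
    (fun a _ ih l =>
      List.rec (motive := fun _ => ℕ) 0 (fun b bs _ => Nat.add (Nat.mul a b) (ih bs)) l) r

/-- Sum, through the recursor. -/
noncomputable def sumK (l : List ℕ) : ℕ :=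
  List.rec (motive := fun _ => ℕ) 0 (fun a _ r => Nat.add a r) l

theorem dotK_eq : ∀ r l : List ℕ, dotK r l = dot r l
  | [], _ => rfl
  | _ :: _, [] => rfl
  | a :: r, b :: l => by
    show Nat.add (Nat.mul a b) (dotK r l) = _
    rw [dotK_eq r l]; rfl

theorem sumK_eq : ∀ l : List ℕ, sumK l = l.sum
  | [] => rfl
  | a :: l => by
    show Nat.add a (sumK l) = _
    rw [sumK_eq l]; rfl

/-- The test on one row: `y` holds the packed rows shifted up by `off`. -/
noncomputable def rowOK (H off rp : ℕ) (y a : List ℕ) : Bool :=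
  (dotK a y + H * rp - sumK a * off * rp) &&& (H * rp) == H * rp

/-- The bounds making the digits of one pair of cells meaningful. -/
def leafPre (wA wB o D L M : ℕ) (K : List Row) (Bs : List PE) (U V : Cell) : Bool :=
  decide (dot (K.map fun k => k.A.ev (oneCell U))
    (K.map fun k => dot k.P (Bs.map fun e => e.ev (oneCell V)) + 2 ^ o) < 2 ^ (wB - 1)) &&
  chain (2 ^ L) 0 (blocks D) && decide (blen (blocks D) ≤ 2 ^ M) &&
  (K.all fun k => decide (k.A.deg < D) && decide (k.A.ev (oneCell U) < 2 ^ wA) &&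
    decide (k.A.ev (packCell U (2 ^ wA) D) < (2 ^ wA) ^ 2 ^ L) &&
    (expdB wA D (k.A.ev (packCell U (2 ^ wA) D)) (List.range D) ==
      k.A.ev (packCell U (2 ^ wA) D)) &&
    decide (dot k.N (Bs.map fun e => e.ev (oneCell V)) ≤ 2 ^ o)) &&
  Bs.all fun e => decide (e.deg < D) && decide (e.ev (oneCell V) < 2 ^ wB) &&
    decide (e.ev (packCell V (2 ^ wB) D) < (2 ^ wB) ^ 2 ^ L) &&
    (expdB wB D (e.ev (packCell V (2 ^ wB) D)) (List.range D) == e.ev (packCell V (2 ^ wB) D))

/-- The packed shifted row of `k`. -/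
def yRow (wB o D M : ℕ) (Bs : List PE) (V : Cell) (k : Row) : ℕ :=
  dot k.P (Bs.map fun e => compB wB D (e.ev (packCell V (2 ^ wB) D)) (List.range D)) +
    2 ^ o * rep (2 ^ wB) M -
  dot k.N (Bs.map fun e => compB wB D (e.ev (packCell V (2 ^ wB) D)) (List.range D))

/-- All rows. -/
noncomputable def leafRows (wA wB o D M : ℕ) (K : List Row) (Bs : List PE) (U V : Cell) : Bool :=
  allRows (2 ^ wA)
    (rowOK (2 ^ (wB - 1)) (2 ^ o) (rep (2 ^ wB) M) (K.map (yRow wB o D M Bs V)))
    M (K.map fun k => compB wA D (k.A.ev (packCell U (2 ^ wA) D)) (List.range D))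

/-- The position of the slot of the `t`-th monomial, out of range past the last. -/
def pos' (D L t : ℕ) : ℕ := if t < blen (blocks D) then slotAt (blocks D) t else 2 ^ L

/-- An expression on a chart, read off its compressed digits. -/
theorem read_runs {w D L M : ℕ} (e : PE) (W : Cell) (hD : e.deg < D)
    (hone : e.ev (oneCell W) < 2 ^ w) (hval : e.ev (packCell W (2 ^ w) D) < (2 ^ w) ^ 2 ^ L)
    (hexp : expd (2 ^ w) (e.ev (packCell W (2 ^ w) D)) (blocks D) = e.ev (packCell W (2 ^ w) D))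
    (hchain : chain (2 ^ L) 0 (blocks D) = true) (hlen : blen (blocks D) ≤ 2 ^ M)
    (z : Fin 4 → ℝ) (hz : z 3 = 1) :
    e.ev (pt W z) = ∑ j ∈ Finset.range (2 ^ M),
        (dig (2 ^ w) (e.ev (packCell W (2 ^ w) D)) (pos' D L j) : ℝ) * mon D z (pos' D L j) ∧
      (∀ j, dig (2 ^ w) (e.ev (packCell W (2 ^ w) D)) (pos' D L j) ≤ e.ev (oneCell W)) ∧
      comp (2 ^ w) (e.ev (packCell W (2 ^ w) D)) (blocks D) = ∑ j ∈ Finset.range (2 ^ M),
        dig (2 ^ w) (e.ev (packCell W (2 ^ w) D)) (pos' D L j) * (2 ^ w) ^ j := by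
  have eU : (fun i => MvPolynomial.eval (pack (2 ^ w) D) (chart W i)) = packCell W (2 ^ w) D := by
    funext i; simp [chart, packCell, pack]
  have e1 : (fun i => MvPolynomial.eval (1 : Fin 4 → ℕ) (chart W i)) = oneCell W := by
    funext i; simp [chart, oneCell]
  have e2 : (fun i => MvPolynomial.eval₂ (Nat.castRingHom ℝ) z (chart W i)) = pt W z := by
    funext i; simp [chart, pt, hz]
  have := unpack e (chart W) (totalDegree_chart W) hD (B := 2 ^ w) (N := 2 ^ L)
    (by rw [e1]; exact hone) (by rw [eU]; exact hval) z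
  rw [eU, e1, e2] at this
  obtain ⟨d, hd⟩ := Nat.exists_eq_add_of_le hlen
  have hout : ∀ t, dig (2 ^ w) (e.ev (packCell W (2 ^ w) D)) (pos' D L (blen (blocks D) + t)) = 0 :=
    fun t => by simp [pos', dig, Nat.div_eq_of_lt hval]
  refine ⟨?_, fun j => ?_, ?_⟩
  · rw [this.1, sum_runs (Nat.two_pow_pos w) (fun i => mon D z i) (blocks D) hchain hval
      (by rw [pow_zero, Nat.mod_one, Nat.zero_add]; exact hexp), Finset.range_zero,
      Finset.sum_empty, zero_add, hd, Finset.sum_range_add]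
    rw [Finset.sum_eq_zero (fun t _ => by rw [hout]; simp) (s := Finset.range d), add_zero]
    exact Finset.sum_congr rfl fun t ht => by simp [pos', Finset.mem_range.1 ht]
  · rcases lt_or_ge (pos' D L j) (2 ^ L) with hh | hh
    · exact this.2 _ hh
    · have : dig (2 ^ w) (e.ev (packCell W (2 ^ w) D)) (pos' D L j) = 0 := by
        simp [dig, Nat.div_eq_of_lt (lt_of_lt_of_le hval
          (Nat.pow_le_pow_right (Nat.two_pow_pos _) hh))]
      omega
  · rw [comp_eq, hd, Finset.sum_range_add, Finset.sum_eq_zero (fun t _ => by rw [hout]; simp)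
      (s := Finset.range d), add_zero]
    exact Finset.sum_congr rfl fun t ht => by simp [pos', Finset.mem_range.1 ht]

theorem leaf_sound {wA wB o D L M : ℕ} {K : List Row} {Bs : List PE} {U V : Cell} (hw : 0 < wB)
    (hK : leafPre wA wB o D L M K Bs U V = true)
    (hrows : leafRows wA wB o D M K Bs U V = true) (x y : Fin 4 → ℝ) (hx : ∀ i, 0 ≤ x i)
    (hy : ∀ i, 0 ≤ y i) (hx3 : x 3 = 1) (hy3 : y 3 = 1) :
    0 ≤ formVal K Bs (pt U x) (pt V y) := by
  simp only [leafPre, Bool.and_eq_true, List.all_eq_true, decide_eq_true_eq, beq_iff_eq,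
    expdB_eq] at hK
  obtain ⟨⟨⟨⟨hbound, hchain⟩, hlen⟩, hK⟩, hBs⟩ := hK
  have hb2 : ∀ D : ℕ, ((List.range D).flatMap fun k => shiftRuns (D * D * k) (inner D k)) =
      blocks D := fun _ => rfl
  set a : Row → ℕ := fun k => k.A.ev (packCell U (2 ^ wA) D) with hadef
  set b : PE → ℕ := fun e => e.ev (packCell V (2 ^ wB) D) with hbdef
  set σ : ℕ → ℕ := pos' D L with hσdef
  have hA : ∀ k ∈ K, k.A.ev (pt U x) =
      ∑ i ∈ Finset.range (2 ^ M), (dig (2 ^ wA) (a k) (σ i) : ℝ) * mon D x (σ i) ∧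
      compB wA D (a k) (List.range D) =
        ∑ i ∈ Finset.range (2 ^ M), dig (2 ^ wA) (a k) (σ i) * (2 ^ wA) ^ i ∧
      (∀ i, dig (2 ^ wA) (a k) (σ i) < 2 ^ wA) ∧
      ∀ i, dig (2 ^ wA) (a k) (σ i) ≤ k.A.ev (oneCell U) := fun k hk => by
    obtain ⟨⟨⟨⟨h1, h3⟩, h5⟩, he⟩, -⟩ := hK k hk
    rw [hb2] at he
    have h := read_runs k.A U h1 h3 h5 he hchain hlen x hx3
    exact ⟨h.1, by rw [compB_eq, hb2]; exact h.2.2, fun i => Nat.mod_lt _ (Nat.two_pow_pos _), h.2.1⟩
  have hB : ∀ e ∈ Bs, e.ev (pt V y) =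
      ∑ j ∈ Finset.range (2 ^ M), (dig (2 ^ wB) (b e) (σ j) : ℝ) * mon D y (σ j) ∧
      (∀ j, dig (2 ^ wB) (b e) (σ j) ≤ e.ev (oneCell V)) ∧
      comp (2 ^ wB) (b e) (blocks D) =
        ∑ j ∈ Finset.range (2 ^ M), dig (2 ^ wB) (b e) (σ j) * (2 ^ wB) ^ j := fun e hk => by
    obtain ⟨⟨⟨h2, h4⟩, h6⟩, he⟩ := hBs e hk
    rw [hb2] at he
    exact read_runs e V h2 h4 h6 he hchain hlen y hy3
  set d : PE → ℕ → ℕ := fun e j => dig (2 ^ wB) (b e) (σ j) with hddef
  set P : Row → ℕ → ℕ := fun k j => dot k.P (Bs.map fun e => d e j) with hPdef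
  set N : Row → ℕ → ℕ := fun k j => dot k.N (Bs.map fun e => d e j) with hNdef
  have hrow : ∀ r : List ℕ, dotR r (Bs.map fun e => e.ev (pt V y)) =
      ∑ j ∈ Finset.range (2 ^ M), (dot r (Bs.map fun e => d e j) : ℝ) * mon D y (σ j) := fun r => by
    rw [List.map_congr_left fun e he => (hB e he).1]
    exact dotR_sum _ d (fun j => mon D y (σ j)) r Bs
  have hcomp : ∀ r : List ℕ, dot r (Bs.map fun e => comp (2 ^ wB) (b e) (blocks D)) =
      ∑ j ∈ Finset.range (2 ^ M), dot r (Bs.map fun e => d e j) * (2 ^ wB) ^ j := fun r => by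
    rw [List.map_congr_left fun e he => (hB e he).2.2, dot_sum]
    exact Finset.sum_congr rfl fun j _ => dot_mul_right _ _ r Bs
  have hN : ∀ k ∈ K, ∀ j, N k j ≤ 2 ^ o := fun k hk j =>
    (dot_mono k.N Bs fun e he => (hB e he).2.1 j).trans (hK k hk).2
  have hy' : ∀ k ∈ K, yRow wB o D M Bs V k =
      ∑ j ∈ Finset.range (2 ^ M), (P k j + 2 ^ o - N k j) * (2 ^ wB) ^ j := fun k hk => by
    simp only [yRow, compB_eq, hb2, rep_eq]
    apply Nat.sub_eq_of_eq_add
    rw [show dot k.P (Bs.map fun e => comp (2 ^ wB) (e.ev (packCell V (2 ^ wB) D)) (blocks D)) = _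
        from hcomp k.P,
      show dot k.N (Bs.map fun e => comp (2 ^ wB) (e.ev (packCell V (2 ^ wB) D)) (blocks D)) = _
        from hcomp k.N, Finset.mul_sum, ← Finset.sum_add_distrib, ← Finset.sum_add_distrib]
    refine Finset.sum_congr rfl fun j _ => ?_
    have := hN k hk j
    rw [← Nat.add_mul, ← Nat.add_mul]
    congr 1
    simp only [hPdef, hNdef] at this ⊢
    omega
  have hm : ∀ (z : Fin 4 → ℝ), (∀ i, 0 ≤ z i) → ∀ i, 0 ≤ mon D z i := fun z hz i => by
    have := hz 0; have := hz 1; have := hz 2; have := hz 3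
    unfold mon; positivity
  have expand : formVal K Bs (pt U x) (pt V y) = ∑ i ∈ Finset.range (2 ^ M), mon D x (σ i) *
      ∑ j ∈ Finset.range (2 ^ M), mon D y (σ j) *
        (K.map fun k => (dig (2 ^ wA) (a k) (σ i) : ℝ) * ((P k j : ℝ) - (N k j : ℝ))).sum := by
    have e : ∀ k ∈ K, k.A.ev (pt U x) * (dotR k.P (Bs.map fun e => e.ev (pt V y)) -
        dotR k.N (Bs.map fun e => e.ev (pt V y))) =
        ∑ i ∈ Finset.range (2 ^ M), mon D x (σ i) * ∑ j ∈ Finset.range (2 ^ M), mon D y (σ j) *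
          ((dig (2 ^ wA) (a k) (σ i) : ℝ) * ((P k j : ℝ) - (N k j : ℝ))) := fun k hk => by
      rw [(hA k hk).1, hrow, hrow, ← Finset.sum_sub_distrib]
      simp only [Finset.sum_mul, Finset.mul_sum]
      rw [Finset.sum_comm]
      exact Finset.sum_congr rfl fun i _ => Finset.sum_congr rfl fun j _ => by ring
    rw [formVal, List.map_congr_left e, sum_comm_list]
    refine Finset.sum_congr rfl fun i _ => ?_
    rw [List.sum_map_mul_left, sum_comm_list]
    congr 1
    exact Finset.sum_congr rfl fun j _ => List.sum_map_mul_left _ _ _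
  rw [expand]
  refine Finset.sum_nonneg fun i hi => mul_nonneg (hm x hx (σ i)) ?_
  have hlt : ∀ k ∈ K, compB wA D (a k) (List.range D) < (2 ^ wA) ^ 2 ^ M := fun k hk => by
    rw [(hA k hk).2.1]; exact geom_lt _ _ (hA k hk).2.2.1
  have hdg : ∀ k ∈ K, dig (2 ^ wA) (compB wA D (a k) (List.range D)) i =
      dig (2 ^ wA) (a k) (σ i) := fun k hk => by
    rw [(hA k hk).2.1]
    exact dig_sum (Nat.two_pow_pos _) _ (hA k hk).2.2.1 (Finset.mem_range.1 hi)
  have hrw := allRows_sound K M (fun k => compB wA D (a k) (List.range D)) hlt hrows i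
    (Finset.mem_range.1 hi)
  rw [List.map_congr_left hdg] at hrw
  rcases hrw.imp_left (fun h k hk => (hdg k hk).symm.trans (h k hk)) with hz | hr
  · refine le_of_eq (Eq.symm (Finset.sum_eq_zero fun j _ => ?_))
    rw [List.sum_eq_zero (fun r hr => ?_), mul_zero]
    obtain ⟨k, hk, rfl⟩ := List.mem_map.1 hr
    simp [hz k hk]
  set ai : Row → ℕ := fun k => dig (2 ^ wA) (a k) (σ i) with haidef
  simp only [rowOK, beq_iff_eq, dotK_eq, sumK_eq, dot_map, rep_eq] at hr
  simp only [dot_map] at hbound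
  have hmask := hr
  set p : ℕ → ℕ := fun j => (K.map fun k => ai k * (P k j + 2 ^ o - N k j)).sum with hpdef
  set S := (K.map ai).sum * 2 ^ o with hSdef
  have hp : ∀ j, p j < 2 ^ (wB - 1) ∧ S < 2 ^ (wB - 1) := fun j => by
    refine ⟨lt_of_le_of_lt ?_ hbound, lt_of_le_of_lt ?_ hbound⟩
    refine List.sum_le_sum fun k hk => ?_
    have := dot_mono k.P Bs fun e he => (hB e he).2.1 j
    exact Nat.mul_le_mul ((hA k hk).2.2.2 i) ((Nat.sub_le _ _).trans (Nat.add_le_add_right this _))
    rw [hSdef, ← List.sum_map_mul_right]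
    exact List.sum_le_sum fun k hk =>
      Nat.mul_le_mul ((hA k hk).2.2.2 i) (Nat.le_add_left _ _)
  have hsum : (K.map fun k => ai k * yRow wB o D M Bs V k).sum =
      ∑ j ∈ Finset.range (2 ^ M), p j * (2 ^ wB) ^ j := by
    rw [List.map_congr_left fun k hk => show ai k * yRow wB o D M Bs V k = _ from
      congrArg (ai k * ·) (hy' k hk)]
    simp only [hpdef, ← List.sum_map_mul_right, Finset.mul_sum]
    rw [sum_comm_list]
    exact Finset.sum_congr rfl fun j _ =>
      congrArg List.sum (List.map_congr_left fun k _ => (mul_assoc _ _ _).symm)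
  rw [hsum, show (K.map fun k => dig (2 ^ wA) (a k) (σ i)).sum * 2 ^ o *
      (∑ j ∈ Finset.range (2 ^ M), (2 ^ wB) ^ j) =
        ∑ j ∈ Finset.range (2 ^ M), S * (2 ^ wB) ^ j from Finset.mul_sum _ _ _] at hmask
  have key := mask_sound hw p (fun _ => S) (fun j _ => (hp j).1) (fun j _ => (hp j).2) hmask
  refine Finset.sum_nonneg fun j hj => mul_nonneg (hm y hy (σ j)) ?_
  have h := (Nat.cast_le (α := ℝ)).2 (key j (Finset.mem_range.1 hj))
  simp only [hpdef, hSdef, Nat.cast_mul, Nat.cast_list_sum, List.map_map, Function.comp_def] at h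
  have e : ∀ k ∈ K, ((ai k : ℝ) * ((P k j + 2 ^ o - N k j : ℕ) : ℝ)) =
      (dig (2 ^ wA) (a k) (σ i) : ℝ) * ((P k j : ℝ) - (N k j : ℝ)) + (ai k : ℝ) * 2 ^ o := fun k hk => by
    rw [Nat.cast_sub ((hN k hk j).trans (Nat.le_add_left _ _))]
    push_cast
    simp only [haidef]
    ring
  rw [List.map_congr_left e, List.sum_map_add, List.sum_map_mul_right] at h
  push_cast at h
  linarith

/-- The rows and columns are homogeneous of fixed degrees. -/
def homOK (dA dB : ℕ) (K : List Row) (Bs : List PE) : Bool :=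
  (K.all fun k => k.A.hom && k.A.deg == dA) && Bs.all fun e => e.hom && e.deg == dB

/-- Nonnegativity on a pair of cells. -/
def Pos (K : List Row) (Bs : List PE) (U V : Cell) : Prop :=
  ∀ x y : Fin 4 → ℝ, (∀ i, 0 ≤ x i) → (∀ i, 0 ≤ y i) → 0 ≤ formVal K Bs (pt U x) (pt V y)

theorem dotR_smul (c : ℝ) : ∀ (r : List ℕ) (l : List PE) (f : PE → ℝ),
    dotR r (l.map fun e => c * f e) = c * dotR r (l.map f)
  | [], _, _ => by simp [dotR]
  | _ :: _, [], _ => by simp [dotR]
  | a :: r, e :: l, f => by simp only [List.map_cons, dotR, dotR_smul c r l f]; ring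

theorem formVal_smul {dA dB : ℕ} {K : List Row} {Bs : List PE} (hh : homOK dA dB K Bs = true)
    (r s : ℝ) (u v : Fin 4 → ℝ) :
    formVal K Bs (fun i => r * u i) (fun i => s * v i) = r ^ dA * s ^ dB * formVal K Bs u v := by
  simp only [homOK, List.all_eq_true, Bool.and_eq_true, beq_iff_eq] at hh
  rw [formVal, formVal, ← List.sum_map_mul_left]
  refine congrArg List.sum (List.map_congr_left fun k hk => ?_)
  rw [List.map_congr_left fun e he => show e.ev (fun i => s * v i) = s ^ dB * e.ev v by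
    rw [PE.ev_smul _ _ _ (hh.2 e he).1, (hh.2 e he).2], dotR_smul, dotR_smul,
    PE.ev_smul _ _ _ (hh.1 k hk).1, (hh.1 k hk).2]
  ring

theorem continuous_dotR {T : Type} [TopologicalSpace T] (g : PE → T → ℝ)
    (hg : ∀ e, Continuous (g e)) : ∀ (r : List ℕ) (l : List PE),
    Continuous fun t => dotR r (l.map fun e => g e t)
  | [], _ => by simpa [dotR] using continuous_const
  | _ :: _, [] => by simpa [dotR] using continuous_const
  | a :: r, e :: l => by
    simp only [List.map_cons, dotR]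
    exact (continuous_const.mul (hg e)).add (continuous_dotR g hg r l)

theorem pos_leaf {wA wB o D L M dA dB : ℕ} {K : List Row} {Bs : List PE} {U V : Cell}
    (hh : homOK dA dB K Bs = true) (hw : 0 < wB) (hK : leafPre wA wB o D L M K Bs U V = true)
    (hrows : leafRows wA wB o D M K Bs U V = true) : Pos K Bs U V := by
  intro x y hx hy
  have pos : ∀ x y : Fin 4 → ℝ, (∀ i, 0 ≤ x i) → (∀ i, 0 ≤ y i) → 0 < x 3 → 0 < y 3 →
      0 ≤ formVal K Bs (pt U x) (pt V y) := by
    intro x y hx hy h3 g3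
    have e : ∀ (W : Cell) (z : Fin 4 → ℝ), 0 < z 3 →
        pt W z = fun i => z 3 * pt W (fun v => z v / z 3) i := fun W z hz => by
      funext i; simp only [pt]; field_simp
    rw [e U x h3, e V y g3, formVal_smul hh]
    exact mul_nonneg (by positivity) (leaf_sound hw hK hrows _ _ (fun i => div_nonneg (hx i) h3.le)
      (fun i => div_nonneg (hy i) g3.le) (div_self h3.ne') (div_self g3.ne'))
  have hp : ∀ (W : Cell) (z : Fin 4 → ℝ),
      Continuous fun t : ℝ => pt W fun v => z v + if v = 3 then t else 0 := fun W z => by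
    refine continuous_pi fun c => ?_
    simp only [pt, Fin.reduceEq, if_false, if_true]
    fun_prop
  have hc : Continuous fun t : ℝ => formVal K Bs (pt U fun v => x v + if v = 3 then t else 0)
      (pt V fun v => y v + if v = 3 then t else 0) := by
    have hd := fun r => continuous_dotR (fun e t => e.ev (pt V fun v => y v + if v = 3 then t else 0))
      (fun e => e.continuous_ev.comp (hp V y)) r Bs
    exact continuous_list_sum K fun k _ =>
      (k.A.continuous_ev.comp (hp U x)).mul ((hd k.P).sub (hd k.N))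
  have h0 := hc.tendsto 0
  simp only [ite_self, add_zero] at h0
  refine ge_of_tendsto (h0.mono_left (nhdsWithin_le_nhds (s := Set.Ioi 0))) ?_
  filter_upwards [self_mem_nhdsWithin] with t (ht : 0 < t)
  refine pos _ _ (fun i => ?_) (fun i => ?_) ?_ ?_
  · have := hx i; split_ifs <;> linarith
  · have := hy i; split_ifs <;> linarith
  · simp only [if_true]; linarith [hx 3]
  · simp only [if_true]; linarith [hy 3]

theorem pos_left {K : List Row} {Bs : List PE} {U V : Cell} (i j : Fin 4) (h : i ≠ j)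
    (hA : Pos K Bs (sub U i j j) V) (hB : Pos K Bs (sub U i j i) V) : Pos K Bs U V :=
  fun x y hx hy => by
  rcases split_point U h x hx with ⟨z, hz, e⟩ | ⟨z, hz, e⟩
  · rw [e]; exact hA z y hz hy
  · rw [e]; exact hB z y hz hy

theorem pos_right {K : List Row} {Bs : List PE} {U V : Cell} (i j : Fin 4) (h : i ≠ j)
    (hA : Pos K Bs U (sub V i j j)) (hB : Pos K Bs U (sub V i j i)) : Pos K Bs U V :=
  fun x y hx hy => by
  rcases split_point V h y hy with ⟨z, hz, e⟩ | ⟨z, hz, e⟩
  · rw [e]; exact hA x z hx hz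
  · rw [e]; exact hB x z hx hz

theorem pt_scale {W W' : Cell} {k : Fin 4 → ℕ} (h : ∀ v c, W v c = k v * W' v c)
    (z : Fin 4 → ℝ) : pt W z = pt W' fun v => k v * z v := by
  funext c; simp only [pt_eq_sum, h, Nat.cast_mul]
  exact Finset.sum_congr rfl fun v _ => by ring

/-- Corners may be rescaled. -/
theorem pos_scale {K : List Row} {Bs : List PE} {U V : Cell} (U' V' : Cell)
    (k l : Fin 4 → ℕ) (hU : ∀ v c, U v c = k v * U' v c) (hV : ∀ v c, V v c = l v * V' v c)
    (h : Pos K Bs U' V') : Pos K Bs U V := fun x y hx hy => by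
  rw [pt_scale hU, pt_scale hV]
  exact h _ _ (fun v => mul_nonneg (Nat.cast_nonneg _) (hx v))
    (fun v => mul_nonneg (Nat.cast_nonneg _) (hy v))

end Vale.Agent.P154.Q4
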