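import Vale.Agent.P154.Q4.Cert

/-!
# The forms entering the certificates

With `s = W₀ + W₁ + W₂ + W₃` and `E i = 4 W i - s`, signed forms are pairs of expressions with
natural coefficients.
-/

namespace Vale.Agent.P154.Q4

/-- A signed expression `p - n`. -/
structure SE where
  p : PE
  n : PE

/-- Product. -/
def SE.mul (a b : SE) : SE :=
  ⟨.add (.mul a.p b.p) (.mul a.n b.n), .add (.mul a.p b.n) (.mul a.n b.p)⟩
/-- Negation. -/
def SE.neg (a : SE) : SE := ⟨a.n, a.p⟩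
/-- Multiplication by an unsigned expression. -/
def SE.scl (a : SE) (k : PE) : SE := ⟨.mul k a.p, .mul k a.n⟩
/-- Sum of four. -/
def SE.sum4 (a b c d : SE) : SE :=
  ⟨.add (.add (.add a.p b.p) c.p) d.p, .add (.add (.add a.n b.n) c.n) d.n⟩

/-- The sum of the variables. -/
def pS : PE := .add (.add (.add (.var 0) (.var 1)) (.var 2)) (.var 3)
/-- Homogenisation by `k` powers of the sum. -/
def hpad (e : PE) (k : ℕ) : PE := .mul e (.pow pS k)
/-- Homogenisation of a signed expression. -/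
def SE.hpad (a : SE) (k : ℕ) : SE := ⟨Q4.hpad a.p k, Q4.hpad a.n k⟩

/-- `4 W i - s`. -/
def dev (i : Fin 4) : SE := ⟨.mul (.num 4) (.var i), pS⟩
/-- `∑ E²`. -/
def sS : SE := SE.sum4 ((dev 0).mul (dev 0)) ((dev 1).mul (dev 1)) ((dev 2).mul (dev 2))
  ((dev 3).mul (dev 3))
/-- `∑ E³`. -/
def sM : SE := SE.sum4 (((dev 0).mul (dev 0)).mul (dev 0)) (((dev 1).mul (dev 1)).mul (dev 1))
  (((dev 2).mul (dev 2)).mul (dev 2)) (((dev 3).mul (dev 3)).mul (dev 3))
/-- `∑ E⁴`. -/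
def sQ : SE := SE.sum4 (((dev 0).mul (dev 0)).mul ((dev 0).mul (dev 0)))
  (((dev 1).mul (dev 1)).mul ((dev 1).mul (dev 1)))
  (((dev 2).mul (dev 2)).mul ((dev 2).mul (dev 2)))
  (((dev 3).mul (dev 3)).mul ((dev 3).mul (dev 3)))
/-- `32768` times the class functional, homogenised. -/
def sF : SE :=
  let a := sM.mul ⟨.add (.mul (.num 32) (.pow pS 2)) sS.p, sS.n⟩
  let b := SE.scl ⟨.add (sS.mul sS).p sQ.p, .add (sS.mul sS).n sQ.n⟩ (.mul (.num 4) pS)
  ⟨.add a.p b.n, .add a.n b.p⟩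
/-- The third elementary symmetric function. -/
def pE3 : PE := .add (.add (.add (.mul (.mul (.var 0) (.var 1)) (.var 2))
  (.mul (.mul (.var 0) (.var 1)) (.var 3))) (.mul (.mul (.var 0) (.var 2)) (.var 3)))
  (.mul (.mul (.var 1) (.var 2)) (.var 3))
/-- The product of the variables. -/
def pE4 : PE := .mul (.mul (.mul (.var 0) (.var 1)) (.var 2)) (.var 3)

/-- The root cell: the sorted simplex. -/
def root : Cell := ![![12, 0, 0, 0], ![6, 6, 0, 0], ![4, 4, 4, 0], ![3, 3, 3, 3]]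

end Vale.Agent.P154.Q4
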