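import Vale.Agent.P154.Q4.DataF
import Vale.Agent.P154.Q4.Forms

/-!
# One cell of the degree-14 certificate

All coefficients in the coordinates of the two cells are nonnegative, checked on packed numbers.
-/

namespace Vale.Agent.P154.Q4.F

set_option maxRecDepth 20000

/-- The first cell. -/
def cellU0 : Cell := ![![5, 1, 1, 1], ![1, 1, 0, 0], ![1, 1, 1, 0], ![1, 1, 1, 1]]
/-- The second cell. -/
def cellV0 : Cell := ![![1, 0, 0, 0], ![1, 1, 0, 0], ![1, 1, 1, 0], ![1, 1, 1, 1]]

theorem leaf0 : Pos rows (mu.map Key.pe) cellU0 cellV0 :=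
  pos_leaf (wA := 45) (wB := 129) (o := 82) (D := 15) (L := 12) (M := 10) (dA := 14) (dB := 14)
    (by decide +kernel) (by norm_num) (by decide +kernel) (by decide +kernel)

end Vale.Agent.P154.Q4.F
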