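import Vale.Agent.P154.Q4.Ident
import Vale.Agent.P154.Q4.LeafF0
import Vale.Agent.P154.Q4.LeafF1
import Vale.Agent.P154.Q4.LeafF2
import Vale.Agent.P154.Q4.LeafF3

/-!
# The closure certificate

The checked form is the sum over relabellings of a polynomial lower bound for the functional of a
product, minus the rank-one corrections; it is nonnegative on the cone.
-/

namespace Vale.Agent.P154.Q4.F

open scoped BigOperators

/-- A multiple of the multiplier polynomial, homogenised. -/
def ph (u : Fin 4 → ℝ) : ℝ :=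
  (807) * (rs u ^ 11 * (6 * rE3 u)) + (-15912) * (rs u ^ 10 * (24 * rE4 u)) +
    (15408) * (rs u ^ 8 * (6 * rE3 u * (6 * rE3 u))) + (4192) * (rs u ^ 7 * (6 * rE3 u * (24 * rE4 u)))

/-- The functional, homogenised. -/
def fh (u : Fin 4 → ℝ) : ℝ := rs u ^ 9 * rF u

/-- The polynomial lower bound for the functional of a product. -/
def low (W : Fin 4 → ℝ) : ℝ := poly polA (rs W) * rF W + 24 * poly polB (rs W)

theorem val_phi (x : Fin 4 → ℝ) : svVal phi x = low x := by
  rw [svVal_eq_of_svEq phi_ok, svVal_append, svVal_poly, svVal_poly, val_vF, val_vOne, low, rs]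
  ring

theorem val_f (x : Fin 4 → ℝ) : svVal (svOf mu fP) x - svVal (svOf mu fN) x = fh x := by
  rw [svVal_eq_of_svEq f_ok, svVal_append, svVal_pad, val_vF, fh, rs]
  ring

theorem val_ph (x : Fin 4 → ℝ) : svVal (svOf mu phP) x - svVal (svOf mu phN) x = ph x := by
  rw [svVal_eq_of_svEq ph_ok, svVal_append]
  simp only [phiVec, svVal_append, svVal_scale, svVal_pad, svVal_mul, val_vE3, val_vE4, ph, rs]
  push_cast
  ring

theorem form_eq (u v : Fin 4 → ℝ) : ∃ ts, lamTerms base mult tab phi = some ts ∧
    (g : ℝ) * formVal rows (mu.map Key.pe) u v =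
      (ts.map fun t => t.val base mu (mu.map fun k => k.sym u) v).sum -
        3518437208883200 * (fh u * ph v + ph u * fh v) := by
  obtain ⟨ts, hts⟩ := Option.isSome_iff_exists.1 lam_ok
  refine ⟨ts, hts, ?_⟩
  rw [rows_sound u v rows terms rows_ok small_ok, rowsKeys_eq u mu rows keys_ok]
  simp only [terms, hts, Option.getD_some, corr, List.map_append, List.sum_append,
    pairTerms_val ph_pack, pairTerms_val f_pack, val_f, val_ph]
  norm_num
  ring

theorem g_pos : (0 : ℝ) < (g : ℝ) := by norm_num [g]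

theorem symm (u v : Fin 4 → ℝ) :
    formVal rows (mu.map Key.pe) u v = formVal rows (mu.map Key.pe) v u := by
  obtain ⟨ts, hts, e⟩ := form_eq u v
  obtain ⟨ts', hts', e'⟩ := form_eq v u
  obtain rfl : ts = ts' := Option.some.inj (hts.symm.trans hts')
  refine mul_left_cancel₀ g_pos.ne' ?_
  rw [e, e', lamTerms_symm pack_ok u v phi ts hts]
  ring

theorem pos_root : Pos rows (mu.map Key.pe) root root :=
  pos_step 0 3 (by decide) symm
    (pos_step 0 2 (by decide) symm
      (pos_step 0 1 (by decide) symm (pos_scale cellU3 cellV3 ![96, 24, 16, 12] ![96, 24, 16, 12] (by decide +kernel) (by decide +kernel) leaf3) (pos_scale cellU2 cellV2 ![24, 48, 16, 12] ![48, 24, 8, 6] (by decide +kernel) (by decide +kernel) leaf2))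
      (pos_scale cellU1 cellV1 ![8, 24, 16, 6] ![24, 12, 8, 3] (by decide +kernel) (by decide +kernel) leaf1))
    (pos_scale cellU0 cellV0 ![3, 12, 8, 6] ![12, 6, 4, 3] (by decide +kernel) (by decide +kernel) leaf0)

/-- The closure inequality in polynomial form. -/
theorem main (u v : Fin 4 → ℝ) (hu : ∀ i, 0 ≤ u i) (hv : ∀ i, 0 ≤ v i) (su : rs u = 4)
    (sv : rs v = 4) :
    3518437208883200 * (fh u * ph v + ph u * fh v) ≤
      16 ^ 14 * ∑ σ : Equiv.Perm (Fin 4), low (fun i => u i * v (σ i)) := by
  obtain ⟨ts, hts, e⟩ := form_eq u v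
  have h := mul_nonneg g_pos.le (nonneg_of_root keys_ok pos_root u v hu hv)
  rw [e, lamTerms_val tab_ok pack_ok u v su sv phi ts hts] at h
  simp only [val_phi] at h
  norm_num [mult] at h ⊢
  linarith

end Vale.Agent.P154.Q4.F
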