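import Vale.Agent.P154.Q4.Ident
import Vale.Agent.P154.Q4.LeafX0
import Vale.Agent.P154.Q4.LeafX1
import Vale.Agent.P154.Q4.LeafX2

/-!
# The subadditivity certificate

The checked form is minus the sum over relabellings of a polynomial upper bound for the second
moment of a product, plus the rank-one main terms; it is nonnegative on the cone.
-/

namespace Vale.Agent.P154.Q4.X

open scoped BigOperators

/-- A multiple of the multiplier polynomial, homogenised. -/
def ph (u : Fin 4 → ℝ) : ℝ :=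
  (46608) * (rs u ^ 10 * (rS u)) +
    (-76800) * (rs u ^ 7 * (rS u * (6 * rE3 u))) +
    (196608) * (rs u ^ 6 * (rS u * (24 * rE4 u))) +
    (-6684) * (rs u ^ 8 * (rS u * rS u)) +
    (-80896) * (rs u ^ 4 * (rS u * (6 * rE3 u) * (6 * rE3 u))) +
    (-397312) * (rs u ^ 3 * (rS u * (6 * rE3 u) * (24 * rE4 u))) +
    (1490944) * (rs u ^ 2 * (rS u * (24 * rE4 u) * (24 * rE4 u))) +
    (321) * (rs u ^ 6 * (rS u * rS u * rS u)) +
    (5344) * (rs u ^ 5 * (rS u * rS u * (6 * rE3 u))) +
    (-3000) * (rs u ^ 9 * (rM u))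

/-- The functional, homogenised. -/
def fh (u : Fin 4 → ℝ) : ℝ := rs u ^ 7 * rF u
/-- The second moment, homogenised. -/
def ah (u : Fin 4 → ℝ) : ℝ := rs u ^ 10 * rS u
/-- Its square, homogenised. -/
def aah (u : Fin 4 → ℝ) : ℝ := rs u ^ 8 * (rS u * rS u)
/-- The constant, homogenised. -/
def oh (u : Fin 4 → ℝ) : ℝ := rs u ^ 12 * 24

/-- The polynomial upper bound for the second moment of a product. -/
def upp (W : Fin 4 → ℝ) : ℝ := poly polA (rs W) * rS W + 24 * poly polB (rs W)

theorem val_phi (x : Fin 4 → ℝ) : svVal phi x = -upp x := by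
  rw [svVal_eq_of_svEq phi_ok, svVal_scale, svVal_append, svVal_poly, svVal_poly, val_vS, val_vOne,
    upp, rs]
  push_cast
  ring

theorem val_f (x : Fin 4 → ℝ) : svVal (svOf mu fP) x - svVal (svOf mu fN) x = fh x := by
  rw [svVal_eq_of_svEq f_ok, svVal_append, svVal_pad, val_vF, fh, rs]
  ring

theorem val_a (x : Fin 4 → ℝ) : svVal (svOf mu aP) x - svVal (svOf mu aN) x = ah x := by
  rw [svVal_eq_of_svEq a_ok, svVal_append, svVal_pad, val_vS, ah, rs]
  ring

theorem val_aa (x : Fin 4 → ℝ) : svVal (svOf mu aaP) x - svVal (svOf mu aaN) x = aah x := by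
  rw [svVal_eq_of_svEq aa_ok, svVal_append, svVal_pad, svVal_mul, val_vS, aah, rs]
  ring

theorem val_o (x : Fin 4 → ℝ) : svVal (svOf mu oP) x - svVal (svOf mu oN) x = oh x := by
  rw [svVal_eq_of_svEq o_ok, svVal_append, svVal_pad, val_vOne, oh, rs]
  ring

theorem val_ph (x : Fin 4 → ℝ) : svVal (svOf mu phP) x - svVal (svOf mu phN) x = ph x := by
  rw [svVal_eq_of_svEq ph_ok, svVal_append]
  simp only [phiVec, svVal_append, svVal_scale, svVal_pad, svVal_mul, val_vE3, val_vE4, val_vS,
    val_vM, ph, rs]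
  push_cast
  ring

theorem form_eq (u v : Fin 4 → ℝ) : ∃ ts, lamTerms base mult tab phi = some ts ∧
    (g : ℝ) * formVal rows (mu.map Key.pe) u v =
      (ts.map fun t => t.val base mu (mu.map fun k => k.sym u) v).sum -
        512 * (fh u * ph v + ph u * fh v) + 98304000 * (ah u * oh v + oh u * ah v) -
        163840 * (aah u * ah v + ah u * aah v) := by
  obtain ⟨ts, hts⟩ := Option.isSome_iff_exists.1 lam_ok
  refine ⟨ts, hts, ?_⟩
  rw [rows_sound u v rows terms rows_ok small_ok, rowsKeys_eq u mu rows keys_ok]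
  simp only [terms, hts, Option.getD_some, corr, List.map_append, List.sum_append,
    pairTerms_val ph_pack, pairTerms_val f_pack, pairTerms_val a_pack, pairTerms_val aa_pack,
    pairTerms_val o_pack, val_f, val_ph, val_a, val_aa, val_o]
  norm_num
  ring

theorem g_pos : (0 : ℝ) < (g : ℝ) := by norm_num [g]

theorem symm (u v : Fin 4 → ℝ) :
    formVal rows (mu.map Key.pe) u v = formVal rows (mu.map Key.pe) v u := by
  obtain ⟨ts, hts, e⟩ := form_eq u v
  obtain ⟨ts', hts', e'⟩ := form_eq v u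
  obtain rfl : ts = ts' := Option.some.inj (hts.symm.trans hts')
  refine mul_left_cancel₀ g_pos.ne' ?_
  rw [e, e', lamTerms_symm pack_ok u v phi ts hts]
  ring

theorem pos_root : Pos rows (mu.map Key.pe) root root :=
  pos_halves 0 3 (by decide) symm (pos_scale cellU0 cellV0 ![24, 12, 8, 3] ![24, 12, 8, 3] (by decide +kernel) (by decide +kernel) leaf0)
    (pos_scale cellU1 cellV1 ![24, 12, 8, 3] ![3, 12, 8, 6] (by decide +kernel) (by decide +kernel) leaf1)
    (pos_scale cellU2 cellV2 ![3, 12, 8, 6] ![3, 12, 8, 6] (by decide +kernel) (by decide +kernel) leaf2)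

/-- The subadditivity inequality in polynomial form. -/
theorem main (u v : Fin 4 → ℝ) (hu : ∀ i, 0 ≤ u i) (hv : ∀ i, 0 ≤ v i) (su : rs u = 4)
    (sv : rs v = 4) :
    3 * 16 ^ 12 * ∑ σ : Equiv.Perm (Fin 4), upp (fun i => u i * v (σ i)) ≤
      98304000 * (ah u * oh v + oh u * ah v) - 512 * (fh u * ph v + ph u * fh v) -
        163840 * (aah u * ah v + ah u * aah v) := by
  obtain ⟨ts, hts, e⟩ := form_eq u v
  have h := mul_nonneg g_pos.le (nonneg_of_root keys_ok pos_root u v hu hv)
  rw [e, lamTerms_val tab_ok pack_ok u v su sv phi ts hts] at h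
  simp only [val_phi, Finset.sum_neg_distrib] at h
  norm_num [mult] at h ⊢
  linarith

end Vale.Agent.P154.Q4.X
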