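import Vale.Agent.P154.Q4.CertF
import Vale.Agent.P154.Q4.CertX

/-!
# One-vector inequalities

Each symmetric form below is nonnegative on nonnegative vectors: in the coordinates of the sorted
cell (or of its two halves) all its coefficients are nonnegative.
-/

namespace Vale.Agent.P154.Q4

/-- The vector with coordinates `a, b, c, d` in the sorted cell. -/
def srt (a b c d : ℝ) : Fin 4 → ℝ :=
  ![12 * a + 6 * b + 4 * c + 3 * d, 6 * b + 4 * c + 3 * d, 4 * c + 3 * d, 3 * d]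

/-- The core of the closure multiplier. -/
def fCore (u : Fin 4 → ℝ) : ℝ :=
  (807) * (rs u ^ 4 * (6 * rE3 u)) + (-15912) * (rs u ^ 3 * (24 * rE4 u)) +
    (15408) * (rs u * (6 * rE3 u * (6 * rE3 u))) + (4192) * (6 * rE3 u * (24 * rE4 u))

/-- The core of the subadditivity multiplier. -/
def xCore (u : Fin 4 → ℝ) : ℝ :=
  (46608) * (rs u ^ 8 * (rS u)) +
    (-76800) * (rs u ^ 5 * (rS u * (6 * rE3 u))) +
    (196608) * (rs u ^ 4 * (rS u * (24 * rE4 u))) +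
    (-6684) * (rs u ^ 6 * (rS u * rS u)) +
    (-80896) * (rs u ^ 2 * (rS u * (6 * rE3 u) * (6 * rE3 u))) +
    (-397312) * (rs u ^ 1 * (rS u * (6 * rE3 u) * (24 * rE4 u))) +
    (1490944) * (rs u ^ 0 * (rS u * (24 * rE4 u) * (24 * rE4 u))) +
    (321) * (rs u ^ 4 * (rS u * rS u * rS u)) +
    (5344) * (rs u ^ 3 * (rS u * rS u * (6 * rE3 u))) +
    (-3000) * (rs u ^ 7 * (rM u))

/-- The lower end of the class functional. -/
def gBot (u : Fin 4 → ℝ) : ℝ := rF u + 80 * rs u ^ 5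
/-- The edge form. -/
def eForm (u : Fin 4 → ℝ) : ℝ := 2 * rs u * (rS u ^ 2 + rQ u) - rM u * rS u
/-- The upper end of the second moment. -/
def aTop (u : Fin 4 → ℝ) : ℝ := 12 * rs u ^ 2 - rS u

theorem F.ph_eq (u : Fin 4 → ℝ) : F.ph u = rs u ^ 7 * fCore u := by
  simp only [F.ph, fCore]; ring

theorem X.ph_eq (u : Fin 4 → ℝ) : X.ph u = rs u ^ 2 * xCore u := by
  simp only [X.ph, xCore]; ring

theorem rs_comp (u : Fin 4 → ℝ) (τ : Equiv.Perm (Fin 4)) : rs (fun i => u (τ i)) = rs u := by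
  have := Equiv.sum_comp τ u
  simpa [Fin.sum_univ_four, rs] using this

theorem rS_comp (u : Fin 4 → ℝ) (τ : Equiv.Perm (Fin 4)) : rS (fun i => u (τ i)) = rS u := by
  simp only [← val_vS, svVal_comp]

theorem rM_comp (u : Fin 4 → ℝ) (τ : Equiv.Perm (Fin 4)) : rM (fun i => u (τ i)) = rM u := by
  simp only [← val_vM, svVal_comp]

theorem rQ_comp (u : Fin 4 → ℝ) (τ : Equiv.Perm (Fin 4)) : rQ (fun i => u (τ i)) = rQ u := by
  simp only [← val_vQ, svVal_comp]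

theorem rF_comp (u : Fin 4 → ℝ) (τ : Equiv.Perm (Fin 4)) : rF (fun i => u (τ i)) = rF u := by
  simp only [← val_vF, svVal_comp]

theorem rE3_comp (u : Fin 4 → ℝ) (τ : Equiv.Perm (Fin 4)) : rE3 (fun i => u (τ i)) = rE3 u := by
  have := svVal_comp vE3 u τ
  simp only [val_vE3] at this
  linarith

theorem rE4_comp (u : Fin 4 → ℝ) (τ : Equiv.Perm (Fin 4)) : rE4 (fun i => u (τ i)) = rE4 u := by
  have := svVal_comp vE4 u τ
  simp only [val_vE4] at this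
  linarith

/-- A symmetric form nonnegative on sorted vectors is nonnegative on all. -/
theorem nonneg_of_srt (f : (Fin 4 → ℝ) → ℝ)
    (hf : ∀ u (τ : Equiv.Perm (Fin 4)), f (fun i => u (τ i)) = f u)
    (h : ∀ a b c d : ℝ, 0 ≤ a → 0 ≤ b → 0 ≤ c → 0 ≤ d → 0 ≤ f (srt a b c d))
    {u : Fin 4 → ℝ} (hu : ∀ i, 0 ≤ u i) : 0 ≤ f u := by
  have hm := Tuple.monotone_sort fun i => -u i
  have h01 := hm (show (0 : Fin 4) ≤ 1 by decide)
  have h12 := hm (show (1 : Fin 4) ≤ 2 by decide)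
  have h23 := hm (show (2 : Fin 4) ≤ 3 by decide)
  simp only [Function.comp_apply, neg_le_neg_iff] at h01 h12 h23
  set τ := Tuple.sort fun i => -u i
  have e : (fun i => u (τ i)) = srt ((u (τ 0) - u (τ 1)) / 12) ((u (τ 1) - u (τ 2)) / 6)
      ((u (τ 2) - u (τ 3)) / 4) (u (τ 3) / 3) := by
    funext i; fin_cases i <;> simp [srt] <;> ring
  rw [← hf u τ, e]
  exact h _ _ _ _ (by linarith) (by linarith) (by linarith) (by linarith [hu (τ 3)])

theorem gBot_srt {a b c d : ℝ} (ha : 0 ≤ a) (hb : 0 ≤ b) (hc : 0 ≤ c) (hd : 0 ≤ d) :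
    0 ≤ gBot (srt a b c d) := by
  simp only [gBot, rF, rM, rS, rQ, rs, srt, Fin.sum_univ_four, Matrix.cons_val]
  ring_nf
  positivity

theorem eForm_srt {a b c d : ℝ} (ha : 0 ≤ a) (hb : 0 ≤ b) (hc : 0 ≤ c) (hd : 0 ≤ d) :
    0 ≤ eForm (srt a b c d) := by
  simp only [eForm, rM, rS, rQ, rs, srt, Fin.sum_univ_four, Matrix.cons_val]
  ring_nf
  positivity

theorem aTop_srt {a b c d : ℝ} (ha : 0 ≤ a) (hb : 0 ≤ b) (hc : 0 ≤ c) (hd : 0 ≤ d) :
    0 ≤ aTop (srt a b c d) := by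
  simp only [aTop, rS, rs, srt, Fin.sum_univ_four, Matrix.cons_val]
  ring_nf
  positivity

theorem fCore_srt {a b c d : ℝ} (ha : 0 ≤ a) (hb : 0 ≤ b) (hc : 0 ≤ c) (hd : 0 ≤ d) :
    0 ≤ fCore (srt a b c d) := by
  rcases le_total d a with h | h
  · obtain ⟨t, ht, rfl⟩ : ∃ t, 0 ≤ t ∧ a = d + t := ⟨a - d, sub_nonneg.2 h, by ring⟩
    simp only [fCore, rE3, rE4, rs, srt, Matrix.cons_val]
    ring_nf
    positivity
  · obtain ⟨t, ht, rfl⟩ : ∃ t, 0 ≤ t ∧ d = a + t := ⟨d - a, sub_nonneg.2 h, by ring⟩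
    simp only [fCore, rE3, rE4, rs, srt, Matrix.cons_val]
    ring_nf
    positivity

set_option maxRecDepth 20000 in
theorem xCore_srt {a b c d : ℝ} (ha : 0 ≤ a) (hb : 0 ≤ b) (hc : 0 ≤ c) (hd : 0 ≤ d) :
    0 ≤ xCore (srt a b c d) := by
  simp only [xCore, rE3, rE4, rS, rM, rs, srt, Fin.sum_univ_four, Matrix.cons_val]
  ring_nf
  positivity

theorem gBot_nonneg {u : Fin 4 → ℝ} (hu : ∀ i, 0 ≤ u i) : 0 ≤ gBot u :=
  nonneg_of_srt gBot (fun u τ => by simp only [gBot, rF_comp, rs_comp])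
    (fun _ _ _ _ => gBot_srt) hu

theorem eForm_nonneg {u : Fin 4 → ℝ} (hu : ∀ i, 0 ≤ u i) : 0 ≤ eForm u :=
  nonneg_of_srt eForm (fun u τ => by simp only [eForm, rs_comp, rS_comp, rQ_comp, rM_comp])
    (fun _ _ _ _ => eForm_srt) hu

theorem aTop_nonneg {u : Fin 4 → ℝ} (hu : ∀ i, 0 ≤ u i) : 0 ≤ aTop u :=
  nonneg_of_srt aTop (fun u τ => by simp only [aTop, rs_comp, rS_comp]) (fun _ _ _ _ => aTop_srt) hu

theorem fph_nonneg {u : Fin 4 → ℝ} (hu : ∀ i, 0 ≤ u i) : 0 ≤ F.ph u := by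
  rw [F.ph_eq]
  refine mul_nonneg (pow_nonneg ?_ _) ?_
  · have := hu 0; have := hu 1; have := hu 2; have := hu 3; simp only [rs]; linarith
  · exact nonneg_of_srt fCore (fun u τ => by simp only [fCore, rs_comp, rE3_comp, rE4_comp])
      (fun _ _ _ _ => fCore_srt) hu

theorem xph_nonneg {u : Fin 4 → ℝ} (hu : ∀ i, 0 ≤ u i) : 0 ≤ X.ph u := by
  rw [X.ph_eq]
  refine mul_nonneg (sq_nonneg _) ?_
  exact nonneg_of_srt xCore
    (fun u τ => by simp only [xCore, rs_comp, rE3_comp, rE4_comp, rS_comp, rM_comp])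
    (fun _ _ _ _ => xCore_srt) hu

end Vale.Agent.P154.Q4
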