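import Vale.Agent.P154.Q4.Scalar
import Vale.Agent.P154.Q4.Shape

/-!
# The pointwise inequalities

For a weight vector `l` with total `4ρ` and normalisation `u = l / ρ`, `hV l = ρ a(u)` and
`gV l = ρ f(u)` are the contributions to the second moment and to the class functional. Below are
their behaviour along an edge and for the product of two vectors averaged over relabellings.
-/

namespace Vale.Agent.P154.Q4

open scoped BigOperators

/-- Contribution to the second moment. -/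
noncomputable def hV (l : Fin 4 → ℝ) : ℝ := rS l / (48 * rs l)
/-- Contribution to the class functional. -/
noncomputable def gV (l : Fin 4 → ℝ) : ℝ := rF l / (128 * rs l ^ 4)
/-- The closure multiplier. -/
noncomputable def pV (l : Fin 4 → ℝ) : ℝ := F.ph l * 4 ^ 13 / ((F.pden : ℝ) * rs l ^ 13)
/-- The subadditivity multiplier. -/
noncomputable def qV (l : Fin 4 → ℝ) : ℝ := X.ph l * 4 ^ 11 / ((X.pden : ℝ) * rs l ^ 11)
/-- Contribution to the mean square of the second moment. -/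
noncomputable def bV (l : Fin 4 → ℝ) : ℝ := 4 * hV l ^ 2 / rs l

/-- The vector sent through an edge with eigenvalue `lam`. -/
noncomputable def eVec (lam : ℝ) (l : Fin 4 → ℝ) (i : Fin 4) : ℝ :=
  lam * l i + (1 - lam) / 4 * rs l

theorem rs_nonneg {l : Fin 4 → ℝ} (h : ∀ i, 0 ≤ l i) : 0 ≤ rs l := by
  have := h 0; have := h 1; have := h 2; have := h 3
  simp only [rs]; linarith

theorem eq_zero_of_rs {l : Fin 4 → ℝ} (h : ∀ i, 0 ≤ l i) (h0 : rs l = 0) : l = fun _ => 0 := by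
  have := h 0; have := h 1; have := h 2; have := h 3
  simp only [rs] at h0
  funext i; fin_cases i <;> simp <;> linarith

theorem rs_smul (r : ℝ) (l : Fin 4 → ℝ) : rs (fun i => r * l i) = r * rs l := by
  simp only [rs]; ring
theorem rS_smul (r : ℝ) (l : Fin 4 → ℝ) : rS (fun i => r * l i) = r ^ 2 * rS l := by
  simp only [rS, rs, Fin.sum_univ_four]; ring
theorem rM_smul (r : ℝ) (l : Fin 4 → ℝ) : rM (fun i => r * l i) = r ^ 3 * rM l := by
  simp only [rM, rs, Fin.sum_univ_four]; ring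
theorem rQ_smul (r : ℝ) (l : Fin 4 → ℝ) : rQ (fun i => r * l i) = r ^ 4 * rQ l := by
  simp only [rQ, rs, Fin.sum_univ_four]; ring
theorem rF_smul (r : ℝ) (l : Fin 4 → ℝ) : rF (fun i => r * l i) = r ^ 5 * rF l := by
  simp only [rF, rs_smul, rS_smul, rM_smul, rQ_smul]; ring
theorem rE3_smul (r : ℝ) (l : Fin 4 → ℝ) : rE3 (fun i => r * l i) = r ^ 3 * rE3 l := by
  simp only [rE3]; ring
theorem rE4_smul (r : ℝ) (l : Fin 4 → ℝ) : rE4 (fun i => r * l i) = r ^ 4 * rE4 l := by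
  simp only [rE4]; ring

theorem hV_smul {r : ℝ} (l : Fin 4 → ℝ) : hV (fun i => r * l i) = r * hV l := by
  simp only [hV, rs_smul, rS_smul]
  rcases eq_or_ne r 0 with rfl | hr
  · simp
  rcases eq_or_ne (rs l) 0 with h | h
  · simp [h]
  field_simp

theorem gV_smul {r : ℝ} (l : Fin 4 → ℝ) : gV (fun i => r * l i) = r * gV l := by
  simp only [gV, rs_smul, rF_smul]
  rcases eq_or_ne r 0 with rfl | hr
  · simp
  rcases eq_or_ne (rs l) 0 with h | h
  · simp [h]
  field_simp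

theorem pV_smul {r : ℝ} (l : Fin 4 → ℝ) : pV (fun i => r * l i) = r * pV l := by
  simp only [pV, F.ph, rs_smul, rE3_smul, rE4_smul]
  rcases eq_or_ne r 0 with rfl | hr
  · simp
  rcases eq_or_ne (rs l) 0 with h | h
  · simp [h]
  field_simp

theorem qV_smul {r : ℝ} (l : Fin 4 → ℝ) : qV (fun i => r * l i) = r * qV l := by
  simp only [qV, X.ph, rs_smul, rE3_smul, rE4_smul, rS_smul, rM_smul]
  rcases eq_or_ne r 0 with rfl | hr
  · simp
  rcases eq_or_ne (rs l) 0 with h | h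
  · simp [h]
  field_simp

theorem bV_smul {r : ℝ} (l : Fin 4 → ℝ) : bV (fun i => r * l i) = r * bV l := by
  simp only [bV, rs_smul, hV_smul]
  rcases eq_or_ne r 0 with rfl | hr
  · simp
  rcases eq_or_ne (rs l) 0 with h | h
  · simp [h]
  field_simp

theorem rS_nonneg (l : Fin 4 → ℝ) : 0 ≤ rS l := Finset.sum_nonneg fun i _ => sq_nonneg _

theorem hV_nonneg {l : Fin 4 → ℝ} (h : ∀ i, 0 ≤ l i) : 0 ≤ hV l :=
  div_nonneg (rS_nonneg l) (by have := rs_nonneg h; linarith)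

theorem hV_le {l : Fin 4 → ℝ} (h : ∀ i, 0 ≤ l i) : hV l ≤ rs l / 4 := by
  rcases (rs_nonneg h).eq_or_lt with h0 | h0
  · simp [hV, ← h0]
  have := aTop_nonneg h
  rw [hV, div_le_div_iff₀ (by linarith) (by norm_num)]
  simp only [aTop] at this
  nlinarith

theorem gV_ge {l : Fin 4 → ℝ} (h : ∀ i, 0 ≤ l i) : -(5 / 8) * rs l ≤ gV l := by
  rcases (rs_nonneg h).eq_or_lt with h0 | h0
  · simp [gV, ← h0]
  have := gBot_nonneg h
  rw [gV, le_div_iff₀ (by positivity)]
  simp only [gBot] at this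
  nlinarith

theorem pV_nonneg {l : Fin 4 → ℝ} (h : ∀ i, 0 ≤ l i) : 0 ≤ pV l :=
  div_nonneg (mul_nonneg (fph_nonneg h) (by norm_num))
    (mul_nonneg (Nat.cast_nonneg _) (pow_nonneg (rs_nonneg h) _))

theorem qV_nonneg {l : Fin 4 → ℝ} (h : ∀ i, 0 ≤ l i) : 0 ≤ qV l :=
  div_nonneg (mul_nonneg (xph_nonneg h) (by norm_num))
    (mul_nonneg (Nat.cast_nonneg _) (pow_nonneg (rs_nonneg h) _))

theorem bV_nonneg {l : Fin 4 → ℝ} (h : ∀ i, 0 ≤ l i) : 0 ≤ bV l :=
  div_nonneg (mul_nonneg (by norm_num) (sq_nonneg _)) (rs_nonneg h)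

theorem rs_eVec (lam : ℝ) (l : Fin 4 → ℝ) : rs (eVec lam l) = rs l := by
  simp only [eVec, rs]; ring

theorem hV_eVec (lam : ℝ) (l : Fin 4 → ℝ) : hV (eVec lam l) = lam ^ 2 * hV l := by
  simp only [hV, rs_eVec]
  rw [← mul_div_assoc]
  congr 1
  simp only [rS, eVec, rs, Fin.sum_univ_four]
  ring

theorem gV_eVec {lam : ℝ} (h0 : 0 ≤ lam) (h1 : lam ≤ 1) {l : Fin 4 → ℝ} (hl : ∀ i, 0 ≤ l i) :
    lam ^ 3 * gV l ≤ gV (eVec lam l) := by
  have e2 : rS (eVec lam l) = lam ^ 2 * rS l := by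
    simp only [rS, eVec, rs, Fin.sum_univ_four]; ring
  have e3 : rM (eVec lam l) = lam ^ 3 * rM l := by
    simp only [rM, eVec, rs, Fin.sum_univ_four]; ring
  have e4 : rQ (eVec lam l) = lam ^ 4 * rQ l := by
    simp only [rQ, eVec, rs, Fin.sum_univ_four]; ring
  simp only [gV, rs_eVec, ← mul_div_assoc]
  refine div_le_div_of_nonneg_right ?_ (by have := pow_nonneg (rs_nonneg hl) 4; linarith)
  have he := eForm_nonneg hl
  simp only [eForm] at he
  have hs := rs_nonneg hl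
  have hQ : 0 ≤ rQ l := Finset.sum_nonneg fun i _ =>
    (show Even 4 by decide).pow_nonneg _
  have hZ : 0 ≤ 4 * rs l * (rS l ^ 2 + rQ l) := by positivity
  have key : 0 ≤ 4 * rs l * (rS l ^ 2 + rQ l) - (1 + lam) * (rM l * rS l) := by
    rcases le_total 0 (rM l * rS l) with hp | hp
    · nlinarith
    · nlinarith
  have := mul_nonneg (mul_nonneg (pow_nonneg h0 3) (sub_nonneg.2 h1)) key
  simp only [rF, rs_eVec, e2, e3, e4]
  linear_combination this

theorem low_le {W : Fin 4 → ℝ} (hW : ∀ i, 0 ≤ W i) (h : rs W ≤ 16) :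
    F.low W ≤ (F.den : ℝ) * gV W := by
  have h0 := rs_nonneg hW
  have hg := F.gap_nonneg h0 h
  have hb := gV_ge hW
  have e : F.low W = (F.den : ℝ) * gV W - F.gap (rs W) * (gV W + 5 / 8 * rs W) := by
    rw [F.low, F.polB_eq]
    rcases h0.eq_or_lt with h' | h'
    · rw [eq_zero_of_rs hW h'.symm]
      simp [rF, rM, rS, rQ, rs, gV]
    · simp only [F.gap, F.den, gV]
      push_cast
      field_simp
      ring
  rw [e]
  nlinarith [mul_nonneg hg (show 0 ≤ gV W + 5 / 8 * rs W by linarith)]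

theorem le_upp {W : Fin 4 → ℝ} (hW : ∀ i, 0 ≤ W i) (h : rs W ≤ 16) :
    (X.den : ℝ) * hV W ≤ X.upp W := by
  have h0 := rs_nonneg hW
  have hg := X.gap_nonneg h0 h
  have hb := hV_le hW
  have e : X.upp W = (X.den : ℝ) * hV W + X.gap (rs W) * (rs W / 4 - hV W) := by
    rw [X.upp, X.polB_eq]
    rcases h0.eq_or_lt with h' | h'
    · rw [eq_zero_of_rs hW h'.symm]
      simp [rS, rs, hV]
    · simp only [X.gap, X.den, hV]
      push_cast
      field_simp
      ring
  rw [e]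
  nlinarith [mul_nonneg hg (show 0 ≤ rs W / 4 - hV W by linarith)]

/-- Product of two vectors after relabelling the second. -/
def pr (l m : Fin 4 → ℝ) (σ : Equiv.Perm (Fin 4)) (i : Fin 4) : ℝ := l i * m (σ i)

theorem pr_bounds {u v : Fin 4 → ℝ} (hu : ∀ i, 0 ≤ u i) (hv : ∀ i, 0 ≤ v i) (su : rs u = 4)
    (sv : rs v = 4) (σ : Equiv.Perm (Fin 4)) : (∀ i, 0 ≤ pr u v σ i) ∧ rs (pr u v σ) ≤ 16 := by
  refine ⟨fun i => mul_nonneg (hu i) (hv _), ?_⟩
  have hb : ∀ j, v j ≤ 4 := fun j => by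
    have := hv 0; have := hv 1; have := hv 2; have := hv 3
    simp only [rs] at sv
    fin_cases j <;> simp <;> linarith
  have h : ∀ i, pr u v σ i ≤ u i * 4 := fun i => mul_le_mul_of_nonneg_left (hb _) (hu i)
  have := h 0; have := h 1; have := h 2; have := h 3
  simp only [rs] at su ⊢
  linarith

theorem closure_unit {u v : Fin 4 → ℝ} (hu : ∀ i, 0 ≤ u i) (hv : ∀ i, 0 ≤ v i) (su : rs u = 4)
    (sv : rs v = 4) :
    24 * (pV v * gV u + pV u * gV v) ≤ ∑ σ : Equiv.Perm (Fin 4), gV (pr u v σ) := by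
  have h := F.main u v hu hv su sv
  have hle : ∑ σ : Equiv.Perm (Fin 4), F.low (fun i => u i * v (σ i)) ≤
      ∑ σ : Equiv.Perm (Fin 4), (F.den : ℝ) * gV (pr u v σ) :=
    Finset.sum_le_sum fun σ _ => low_le (pr_bounds hu hv su sv σ).1 (pr_bounds hu hv su sv σ).2
  rw [← Finset.mul_sum] at hle
  simp only [F.fh, su, sv] at h
  simp only [pV, gV, su, sv, F.pden, F.den] at hle ⊢
  norm_num at h hle ⊢
  linarith

theorem subadd_unit {u v : Fin 4 → ℝ} (hu : ∀ i, 0 ≤ u i) (hv : ∀ i, 0 ≤ v i) (su : rs u = 4)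
    (sv : rs v = 4) :
    ∑ σ : Equiv.Perm (Fin 4), hV (pr u v σ) ≤ 24 * (rs v / 4 * hV u + rs u / 4 * hV v -
      (qV v * gV u + qV u * gV v) - 1 / 100 * (bV u * hV v + hV u * bV v)) := by
  have h := X.main u v hu hv su sv
  have hle : ∑ σ : Equiv.Perm (Fin 4), (X.den : ℝ) * hV (pr u v σ) ≤
      ∑ σ : Equiv.Perm (Fin 4), X.upp (fun i => u i * v (σ i)) :=
    Finset.sum_le_sum fun σ _ => le_upp (pr_bounds hu hv su sv σ).1 (pr_bounds hu hv su sv σ).2
  rw [← Finset.mul_sum] at hle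
  simp only [X.fh, X.ah, X.aah, X.oh, su, sv] at h
  simp only [qV, gV, bV, X.pden, X.den, su, sv] at hle ⊢
  have e : ∀ w : Fin 4 → ℝ, rs w = 4 → hV w = rS w / 192 := fun w hw => by
    rw [hV, hw]; norm_num
  rw [e u su, e v sv]
  norm_num at h hle ⊢
  linarith

theorem pr_smul (r t : ℝ) (u v : Fin 4 → ℝ) (σ : Equiv.Perm (Fin 4)) :
    pr (fun i => r * u i) (fun i => t * v i) σ = fun i => r * t * pr u v σ i := by
  funext i; simp only [pr]; ring

theorem unit_of {l : Fin 4 → ℝ} (h : ∀ i, 0 ≤ l i) :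
    ∃ r u, 0 ≤ r ∧ (∀ i, 0 ≤ u i) ∧ rs u = 4 ∧ l = fun i => r * u i := by
  rcases (rs_nonneg h).eq_or_lt with h0 | h0
  · exact ⟨0, fun _ => 1, le_rfl, fun _ => zero_le_one, by norm_num [rs],
      by rw [eq_zero_of_rs h h0.symm]; simp⟩
  · refine ⟨rs l / 4, fun i => 4 * l i / rs l, by linarith, fun i => ?_, ?_, ?_⟩
    · have := h i; positivity
    · rw [show (fun i => 4 * l i / rs l) = fun i => (4 / rs l) * l i by funext i; ring, rs_smul]
      field_simp
    · funext i; field_simp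

/-- The class is closed under products. -/
theorem closure_point {l m : Fin 4 → ℝ} (hl : ∀ i, 0 ≤ l i) (hm : ∀ i, 0 ≤ m i) :
    24 * (pV m * gV l + pV l * gV m) ≤ ∑ σ : Equiv.Perm (Fin 4), gV (pr l m σ) := by
  obtain ⟨r, u, hr, hu, su, rfl⟩ := unit_of hl
  obtain ⟨t, v, ht, hv, sv, rfl⟩ := unit_of hm
  have h := mul_le_mul_of_nonneg_left (closure_unit hu hv su sv) (mul_nonneg hr ht)
  simp only [pr_smul, gV_smul, pV_smul, Finset.mul_sum] at h ⊢
  linear_combination h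

/-- Subadditivity of the second moment, with the gain. -/
theorem subadd_point {l m : Fin 4 → ℝ} (hl : ∀ i, 0 ≤ l i) (hm : ∀ i, 0 ≤ m i) :
    ∑ σ : Equiv.Perm (Fin 4), hV (pr l m σ) ≤ 24 * (rs m / 4 * hV l + rs l / 4 * hV m -
      (qV m * gV l + qV l * gV m) - 1 / 100 * (bV l * hV m + hV l * bV m)) := by
  obtain ⟨r, u, hr, hu, su, rfl⟩ := unit_of hl
  obtain ⟨t, v, ht, hv, sv, rfl⟩ := unit_of hm
  have h := mul_le_mul_of_nonneg_left (subadd_unit hu hv su sv) (mul_nonneg hr ht)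
  simp only [pr_smul, hV_smul, gV_smul, qV_smul, bV_smul, rs_smul, Finset.mul_sum] at h ⊢
  linear_combination h

end Vale.Agent.P154.Q4
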