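import Vale.Agent.P154.Induct
import Vale.Agent.P154.Q4.Point

/-!
# The class of four-state channels

Symmetric channels with nonnegative class functional: the class contains the leaf, is closed under
ferromagnetic edges and under products, and on it the second moment is strictly subadditive.
-/

namespace Vale.Agent.P154.Q4

open scoped BigOperators
open Finset

variable {Ω Ω' : Type} [Fintype Ω] [Fintype Ω'] {w : Fin 4 → Ω → ℝ} {v : Fin 4 → Ω' → ℝ}

/-- The vector of one outcome. -/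
def col (w : Fin 4 → Ω → ℝ) (ω : Ω) (i : Fin 4) : ℝ := w i ω

/-- Second moment of a channel. -/
noncomputable def cH (w : Fin 4 → Ω → ℝ) : ℝ := ∑ ω, hV (col w ω)
/-- Class functional of a channel. -/
noncomputable def cG (w : Fin 4 → Ω → ℝ) : ℝ := ∑ ω, gV (col w ω)
/-- Mean square of the second moment. -/
noncomputable def cB (w : Fin 4 → Ω → ℝ) : ℝ := ∑ ω, bV (col w ω)

/-- The class. -/
structure Mem (w : Fin 4 → Ω → ℝ) : Prop where
  nonneg : ∀ i ω, 0 ≤ w i ω
  sum_one : ∀ i, ∑ ω, w i ω = 1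
  symm : ∀ σ : Equiv.Perm (Fin 4), ∃ e : Ω ≃ Ω, ∀ i ω, w i (e ω) = w (σ i) ω
  good : 0 ≤ cG w

theorem Mem.col_nonneg (h : Mem w) (ω : Ω) : ∀ i, 0 ≤ col w ω i := fun i => h.nonneg i ω

theorem Mem.mass (h : Mem w) : ∑ ω, rs (col w ω) / 4 = 1 := by
  simp only [rs, col, ← Finset.sum_div, Finset.sum_add_distrib, h.sum_one]
  norm_num

theorem Mem.cH_nonneg (h : Mem w) : 0 ≤ cH w := sum_nonneg fun ω _ => hV_nonneg (h.col_nonneg ω)

theorem Mem.sq_le_cB (h : Mem w) : cH w ^ 2 ≤ cB w := by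
  have key : ∀ ω, 2 * cH w * hV (col w ω) - cH w ^ 2 * (rs (col w ω) / 4) ≤ bV (col w ω) := by
    intro ω
    rcases (rs_nonneg (h.col_nonneg ω)).eq_or_lt with h0 | h0
    · simp [bV, hV, ← h0]
    · rw [bV, le_div_iff₀ h0]
      nlinarith [sq_nonneg (2 * hV (col w ω) - cH w * rs (col w ω) / 2)]
  have h2 := sum_le_sum fun ω (_ : ω ∈ univ) => key ω
  rw [sum_sub_distrib, ← mul_sum, ← mul_sum, h.mass] at h2
  simp only [cB]
  simp only [cH] at h2 ⊢
  linarith

theorem cH_equiv (e : Ω' ≃ Ω) (w : Fin 4 → Ω → ℝ) : cH (fun i ω => w i (e ω)) = cH w :=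
  e.sum_comp fun ω => hV (col w ω)

theorem Mem.relabel (e : Ω' ≃ Ω) (h : Mem w) : Mem fun i ω => w i (e ω) where
  nonneg i ω := h.nonneg i _
  sum_one i := (e.sum_comp fun ω => w i ω).trans (h.sum_one i)
  symm σ := by
    obtain ⟨f, hf⟩ := h.symm σ
    exact ⟨(e.trans f).trans e.symm, fun i ω => by simp [hf]⟩
  good := h.good.trans_eq (e.sum_comp fun ω => gV (col w ω)).symm

theorem mem_leaf : Mem fun (i : Fin 4) (ω : Fin 4) => if ω = i then (1 : ℝ) else 0 where
  nonneg i ω := by split_ifs <;> norm_num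
  sum_one i := by simp
  symm σ := ⟨σ.symm, fun i ω => by simp only [Equiv.symm_apply_eq]⟩
  good := sum_nonneg fun ω _ => by
    fin_cases ω <;> norm_num [gV, col, rF, rM, rS, rQ, rs, Fin.sum_univ_four, Fin.ext_iff]

theorem mem_trivial : Mem fun (_ : Fin 4) (_ : Unit) => (1 : ℝ) where
  nonneg _ _ := zero_le_one
  sum_one _ := by simp
  symm _ := ⟨Equiv.refl _, fun _ _ => rfl⟩
  good := sum_nonneg fun _ _ => by
    norm_num [gV, col, rF, rM, rS, rQ, rs, Fin.sum_univ_four]

theorem cH_trivial : cH (fun (_ : Fin 4) (_ : Unit) => (1 : ℝ)) = 0 := by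
  norm_num [cH, hV, col, rS, rs, Fin.sum_univ_four]

theorem col_edge (lam : ℝ) (w : Fin 4 → Ω → ℝ) (ω : Ω) :
    col (edgeChan 4 lam w) ω = eVec lam (col w ω) := by
  funext i
  simp only [col, edgeChan, eVec, potts, rs, Fin.sum_univ_four]
  fin_cases i <;> simp <;> ring

theorem Mem.edge {lam : ℝ} (h0 : 0 ≤ lam) (h1 : lam ≤ 1) (h : Mem w) :
    Mem (edgeChan 4 lam w) where
  nonneg i ω := sum_nonneg fun a _ => mul_nonneg (by
    simp only [potts]
    split_ifs <;> simp <;> linarith) (h.nonneg a ω)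
  sum_one i := by
    simp only [edgeChan]
    rw [sum_comm]
    simp only [← mul_sum, h.sum_one, mul_one, potts, Fin.sum_univ_four]
    fin_cases i <;> simp <;> ring
  symm σ := by
    obtain ⟨e, he⟩ := h.symm σ
    refine ⟨e, fun i ω => ?_⟩
    simp only [edgeChan, he]
    rw [← Equiv.sum_comp σ fun a => potts 4 lam (σ i) a * w a ω]
    simp [potts]
  good := by
    refine le_trans (mul_nonneg (pow_nonneg h0 3) h.good) ?_
    simp only [cG, mul_sum, col_edge]
    exact sum_le_sum fun ω _ => gV_eVec h0 h1 (h.col_nonneg ω)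

theorem cH_edge (lam : ℝ) (w : Fin 4 → Ω → ℝ) : cH (edgeChan 4 lam w) = lam ^ 2 * cH w := by
  simp only [cH, col_edge, hV_eVec, mul_sum]

theorem sum_prod_eq (hv : Mem v) (f : (Fin 4 → ℝ) → ℝ) :
    24 * ∑ p : Ω × Ω', f (col (prodChan w v) p) =
      ∑ ω, ∑ η, ∑ σ : Equiv.Perm (Fin 4), f (pr (col w ω) (col v η) σ) := by
  have h : ∀ σ : Equiv.Perm (Fin 4), ∑ ω, ∑ η, f (pr (col w ω) (col v η) σ) =
      ∑ p : Ω × Ω', f (col (prodChan w v) p) := fun σ => by
    obtain ⟨e, he⟩ := hv.symm σ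
    rw [Fintype.sum_prod_type]
    refine sum_congr rfl fun ω _ => ?_
    rw [← e.sum_comp fun η => f (col (prodChan w v) (ω, η))]
    exact sum_congr rfl fun η _ => congrArg f (funext fun i => by simp [pr, col, prodChan, he])
  rw [sum_congr rfl fun ω _ => sum_comm, sum_comm, sum_congr rfl fun σ _ => h σ]
  simp [Fintype.card_perm, Nat.factorial]

theorem bilin (a : Ω → ℝ) (b : Ω' → ℝ) :
    ∑ ω, ∑ η, a ω * b η = (∑ ω, a ω) * ∑ η, b η := (Finset.sum_mul_sum _ _ _ _).symm

theorem Mem.prod (hw : Mem w) (hv : Mem v) : Mem (prodChan w v) where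
  nonneg i p := mul_nonneg (hw.nonneg i _) (hv.nonneg i _)
  sum_one i := by
    simp only [prodChan, Fintype.sum_prod_type, bilin, hw.sum_one, hv.sum_one, mul_one]
  symm σ := by
    obtain ⟨e, he⟩ := hw.symm σ
    obtain ⟨f, hf⟩ := hv.symm σ
    exact ⟨e.prodCongr f, fun i p => by simp [prodChan, he, hf]⟩
  good := by
    have h := sum_le_sum fun ω (_ : ω ∈ univ) => sum_le_sum fun η (_ : η ∈ univ) =>
      closure_point (hw.col_nonneg ω) (hv.col_nonneg η)
    rw [← sum_prod_eq hv] at h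
    have e : ∑ ω, ∑ η, 24 * (pV (col v η) * gV (col w ω) + pV (col w ω) * gV (col v η)) =
        24 * (cG w * (∑ η, pV (col v η)) + (∑ ω, pV (col w ω)) * cG v) := by
      simp only [cG, ← bilin]
      simp only [← sum_add_distrib, mul_sum]
      exact sum_congr rfl fun ω _ => sum_congr rfl fun η _ => by ring
    rw [e] at h
    have := mul_nonneg hw.good (sum_nonneg fun η (_ : η ∈ univ) => pV_nonneg (hv.col_nonneg η))
    have := mul_nonneg (sum_nonneg fun ω (_ : ω ∈ univ) => pV_nonneg (hw.col_nonneg ω)) hv.good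
    simp only [cG] at *
    linarith

/-- Strict subadditivity. -/
theorem Mem.cH_prod_le (hw : Mem w) (hv : Mem v) :
    cH (prodChan w v) ≤ cH w + cH v - 1 / 100 * (cH w * cH v * (cH w + cH v)) := by
  have h := sum_le_sum fun ω (_ : ω ∈ univ) => sum_le_sum fun η (_ : η ∈ univ) =>
    subadd_point (hw.col_nonneg ω) (hv.col_nonneg η)
  rw [← sum_prod_eq hv] at h
  have e : ∑ ω, ∑ η, 24 * (rs (col v η) / 4 * hV (col w ω) + rs (col w ω) / 4 * hV (col v η) -
      (qV (col v η) * gV (col w ω) + qV (col w ω) * gV (col v η)) -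
      1 / 100 * (bV (col w ω) * hV (col v η) + hV (col w ω) * bV (col v η))) =
      24 * (cH w * (∑ η, rs (col v η) / 4) + (∑ ω, rs (col w ω) / 4) * cH v -
        (cG w * (∑ η, qV (col v η)) + (∑ ω, qV (col w ω)) * cG v) -
        1 / 100 * (cB w * cH v + cH w * cB v)) := by
    simp only [cH, cG, cB, ← bilin]
    simp only [← sum_add_distrib, ← sum_sub_distrib, mul_sum]
    exact sum_congr rfl fun ω _ => sum_congr rfl fun η _ => by ring
  rw [e, hw.mass, hv.mass] at h
  have := mul_nonneg hw.good (sum_nonneg fun η (_ : η ∈ univ) => qV_nonneg (hv.col_nonneg η))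
  have := mul_nonneg (sum_nonneg fun ω (_ : ω ∈ univ) => qV_nonneg (hw.col_nonneg ω)) hv.good
  have := mul_le_mul_of_nonneg_right hw.sq_le_cB hv.cH_nonneg
  have := mul_le_mul_of_nonneg_left hv.sq_le_cB hw.cH_nonneg
  simp only [cH, cG] at *
  linarith

theorem Mem.cH_prod_le' (hw : Mem w) (hv : Mem v) :
    cH (prodChan w v) ≤ cH w + cH v := by
  have := hw.cH_nonneg; have := hv.cH_nonneg
  have : 0 ≤ cH w * cH v * (cH w + cH v) := by positivity
  linarith [hw.cH_prod_le hv]

end Vale.Agent.P154.Q4
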