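import Mathlib

/-!
# Polynomial expressions with natural coefficients and their packed values

A polynomial in four variables with natural coefficients, each below the base, is read off the
digits of its value at the packing point.
-/

namespace Vale.Agent.P154.Q4

/-- The twenty-four orders of four places. -/
def perms : List (Fin 4 → Fin 4) :=
  [![0,1,2,3], ![0,1,3,2], ![0,2,1,3], ![0,2,3,1], ![0,3,1,2], ![0,3,2,1],
   ![1,0,2,3], ![1,0,3,2], ![1,2,0,3], ![1,2,3,0], ![1,3,0,2], ![1,3,2,0],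
   ![2,0,1,3], ![2,0,3,1], ![2,1,0,3], ![2,1,3,0], ![2,3,0,1], ![2,3,1,0],
   ![3,0,1,2], ![3,0,2,1], ![3,1,0,2], ![3,1,2,0], ![3,2,0,1], ![3,2,1,0]]

theorem sum_perms {M : Type} [AddCommMonoid M] (f : (Fin 4 → Fin 4) → M) :
    ∑ σ : Equiv.Perm (Fin 4), f σ = (perms.map f).sum := by
  have h : (Finset.univ : Finset (Equiv.Perm (Fin 4))).image (fun σ : Equiv.Perm (Fin 4) => (σ : Fin 4 → Fin 4)) = perms.toFinset := by
    decide +kernel
  rw [← List.sum_toFinset f (by decide +kernel), ← h, Finset.sum_image]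
  exact fun σ _ τ _ e => Equiv.ext fun i => congrFun e i

/-- Polynomial expressions with natural coefficients. -/
inductive PE
  | var (i : Fin 4)
  | num (c : ℕ)
  | sym (a b c d : ℕ)
  | add (p q : PE)
  | mul (p q : PE)
  | pow (p : PE) (n : ℕ)

section
variable {R : Type} [CommSemiring R]

/-- The monomial symmetric sum with multiplicity. -/
def symSum (x : Fin 4 → R) (a b c d : ℕ) : R :=
  (perms.map fun s => x (s 0) ^ a * x (s 1) ^ b * (x (s 2) ^ c * x (s 3) ^ d)).sum

/-- Value of an expression. -/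
def PE.ev (x : Fin 4 → R) : PE → R
  | .var i => x i
  | .num c => c
  | .sym a b c d => symSum x a b c d
  | .add p q => p.ev x + q.ev x
  | .mul p q => p.ev x * q.ev x
  | .pow p n => p.ev x ^ n

theorem map_symSum {S : Type} [CommSemiring S] (g : R →+* S) (x : Fin 4 → R) (a b c d : ℕ) :
    g (symSum x a b c d) = symSum (fun i => g (x i)) a b c d := by
  simp [symSum, map_list_sum, Function.comp_def]

theorem PE.map_ev {S : Type} [CommSemiring S] (g : R →+* S) (x : Fin 4 → R) :
    ∀ e : PE, g (e.ev x) = e.ev fun i => g (x i)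
  | .var i => rfl
  | .num c => by simp [PE.ev]
  | .sym a b c d => map_symSum g x a b c d
  | .add p q => by simp [PE.ev, PE.map_ev g x p, PE.map_ev g x q]
  | .mul p q => by simp [PE.ev, PE.map_ev g x p, PE.map_ev g x q]
  | .pow p n => by simp [PE.ev, PE.map_ev g x p]

end

/-- A degree bound. -/
def PE.deg : PE → ℕ
  | .var _ => 1
  | .num _ => 0
  | .sym a b c d => a + b + c + d
  | .add p q => max p.deg q.deg
  | .mul p q => p.deg + q.deg
  | .pow p n => n * p.deg

/-- Homogeneity. -/
def PE.hom : PE → Bool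
  | .var _ => true
  | .num _ => true
  | .sym _ _ _ _ => true
  | .add p q => p.hom && q.hom && p.deg == q.deg
  | .mul p q => p.hom && q.hom
  | .pow p _ => p.hom

theorem PE.ev_smul (r : ℝ) (x : Fin 4 → ℝ) :
    ∀ e : PE, e.hom = true → e.ev (fun i => r * x i) = r ^ e.deg * e.ev x
  | .var i, _ => by simp [PE.ev, PE.deg]
  | .num c, _ => by simp [PE.ev, PE.deg]
  | .sym a b c d, _ => by
    simp only [PE.ev, PE.deg, symSum, ← List.sum_map_mul_left, mul_pow, pow_add]
    congr 1
    exact List.map_congr_left fun s _ => by ring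
  | .add p q, h => by
    simp only [PE.hom, Bool.and_eq_true, beq_iff_eq] at h
    simp only [PE.ev, PE.deg, PE.ev_smul r x p h.1.1, PE.ev_smul r x q h.1.2, h.2, max_self]
    ring
  | .mul p q, h => by
    simp only [PE.hom, Bool.and_eq_true] at h
    simp only [PE.ev, PE.deg, PE.ev_smul r x p h.1, PE.ev_smul r x q h.2, pow_add]
    ring
  | .pow p n, h => by
    simp only [PE.hom] at h
    simp only [PE.ev, PE.deg, PE.ev_smul r x p h, mul_pow, ← pow_mul, Nat.mul_comm n]

theorem PE.continuous_ev : ∀ e : PE, Continuous fun x : Fin 4 → ℝ => e.ev x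
  | .var i => continuous_apply i
  | .num c => continuous_const
  | .sym a b c d => by
    simp only [PE.ev, symSum, perms, List.map_cons, List.map_nil, List.sum_cons, List.sum_nil]
    fun_prop
  | .add p q => p.continuous_ev.add q.continuous_ev
  | .mul p q => p.continuous_ev.mul q.continuous_ev
  | .pow p n => p.continuous_ev.pow n

theorem PE.totalDegree_ev (a : Fin 4 → MvPolynomial (Fin 4) ℕ) (ha : ∀ i, (a i).totalDegree ≤ 1) :
    ∀ e : PE, (e.ev a).totalDegree ≤ e.deg
  | .var i => ha i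
  | .num c => by
    simp only [PE.ev, PE.deg]
    exact le_of_eq (MvPolynomial.totalDegree_C c)
  | .sym p q r s => by
    simp only [PE.ev, PE.deg, symSum]
    have hpow : ∀ (i : Fin 4) (n : ℕ), (a i ^ n).totalDegree ≤ n := fun i n =>
      (MvPolynomial.totalDegree_pow _ _).trans (by simpa using Nat.mul_le_mul_left n (ha i))
    suffices h : ∀ l : List (Fin 4 → Fin 4),
        (l.map fun t => a (t 0) ^ p * a (t 1) ^ q * (a (t 2) ^ r * a (t 3) ^ s)).sum.totalDegree
          ≤ p + q + r + s from h perms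
    intro l
    induction l with
    | nil => simp
    | cons t l ih =>
      simp only [List.map_cons, List.sum_cons]
      refine (MvPolynomial.totalDegree_add _ _).trans (max_le ?_ ih)
      exact (MvPolynomial.totalDegree_mul _ _).trans ((add_le_add
        ((MvPolynomial.totalDegree_mul _ _).trans (add_le_add (hpow _ _) (hpow _ _)))
        ((MvPolynomial.totalDegree_mul _ _).trans (add_le_add (hpow _ _) (hpow _ _)))).trans_eq
          (by omega))
  | .add p q => (MvPolynomial.totalDegree_add _ _).trans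
      (max_le_max (p.totalDegree_ev a ha) (q.totalDegree_ev a ha))
  | .mul p q => (MvPolynomial.totalDegree_mul _ _).trans
      (add_le_add (p.totalDegree_ev a ha) (q.totalDegree_ev a ha))
  | .pow p n => (MvPolynomial.totalDegree_pow _ _).trans
      (Nat.mul_le_mul_left n (p.totalDegree_ev a ha))

/-- Digit `i` in base `B`. -/
def dig (B n i : ℕ) : ℕ := n / B ^ i % B

theorem geom_lt {B : ℕ} : ∀ (N : ℕ) (c : ℕ → ℕ), (∀ i, c i < B) →
    ∑ i ∈ Finset.range N, c i * B ^ i < B ^ N
  | 0, _, _ => by simp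
  | N + 1, c, hc => by
    rw [Finset.sum_range_succ]
    have h1 := geom_lt N c hc
    have h2 : (c N + 1) * B ^ N ≤ B * B ^ N := Nat.mul_le_mul_right _ (hc N)
    rw [Nat.add_mul, one_mul] at h2
    rw [pow_succ']
    omega

theorem dig_sum {B N : ℕ} (hB : 0 < B) (c : ℕ → ℕ) (hc : ∀ i, c i < B) {j : ℕ} (hj : j < N) :
    dig B (∑ i ∈ Finset.range N, c i * B ^ i) j = c j := by
  induction N with
  | zero => omega
  | succ N ih =>
    rw [Finset.sum_range_succ, dig]
    rcases Nat.lt_succ_iff_lt_or_eq.1 hj with h | rfl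
    · obtain ⟨k, rfl⟩ := Nat.exists_eq_add_of_lt h
      rw [show c (j + k + 1) * B ^ (j + k + 1) = (c (j + k + 1) * B ^ k * B) * B ^ j by
        rw [pow_succ, pow_add]; ring, Nat.add_mul_div_right _ _ (Nat.pow_pos hB),
        Nat.add_mul_mod_self_right]
      exact ih (by omega)
    · rw [Nat.add_mul_div_right _ _ (Nat.pow_pos hB),
        Nat.div_eq_of_lt (geom_lt j c hc), Nat.zero_add, Nat.mod_eq_of_lt (hc j)]

theorem sum_dig (B n : ℕ) : ∀ N : ℕ, ∑ i ∈ Finset.range N, dig B n i * B ^ i = n % B ^ N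
  | 0 => by simp [Nat.mod_one]
  | N + 1 => by
    rw [Finset.sum_range_succ, sum_dig B n N, Nat.mod_pow_succ, dig, Nat.mul_comm (B ^ N)]

/-- The packing point with `D` slots a variable. -/
def pack (B D : ℕ) : Fin 4 → ℕ := ![B, B ^ D, B ^ (D * D), B ^ (D * D * D)]

/-- The monomial in slot `i`. -/
def mon {R : Type} [CommSemiring R] (D : ℕ) (x : Fin 4 → R) (i : ℕ) : R :=
  x 0 ^ (i % D) * x 1 ^ (i / D % D) * x 2 ^ (i / D / D % D) * x 3 ^ (i / D / D / D % D)

/-- The slot of an exponent. -/
def slot (D : ℕ) (m : Fin 4 → ℕ) : ℕ := m 0 + D * (m 1 + D * (m 2 + D * m 3))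

theorem pack_slot (B D : ℕ) (m : Fin 4 → ℕ) : ∏ i, pack B D i ^ m i = B ^ slot D m := by
  simp only [Fin.prod_univ_four, pack, Matrix.cons_val, slot, ← pow_mul, ← pow_add]
  congr 1
  ring

theorem mon_slot {R : Type} [CommSemiring R] {D : ℕ} {m : Fin 4 → ℕ} (h : ∀ i, m i < D)
    (x : Fin 4 → R) : mon D x (slot D m) = ∏ i, x i ^ m i := by
  have hD : 0 < D := lt_of_le_of_lt (Nat.zero_le _) (h 0)
  have e1 : slot D m / D = m 1 + D * (m 2 + D * m 3) := by
    rw [slot, Nat.add_mul_div_left _ _ hD, Nat.div_eq_of_lt (h 0), Nat.zero_add]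
  have e2 : (m 1 + D * (m 2 + D * m 3)) / D = m 2 + D * m 3 := by
    rw [Nat.add_mul_div_left _ _ hD, Nat.div_eq_of_lt (h 1), Nat.zero_add]
  have e3 : (m 2 + D * m 3) / D = m 3 := by
    rw [Nat.add_mul_div_left _ _ hD, Nat.div_eq_of_lt (h 2), Nat.zero_add]
  simp only [mon, e1, e2, e3, Fin.prod_univ_four]
  simp [slot, Nat.add_mul_mod_self_left, Nat.mod_eq_of_lt (h _)]

/-- A polynomial is read off the digits of its packed value. -/
theorem unpack (e : PE) (a : Fin 4 → MvPolynomial (Fin 4) ℕ) (ha : ∀ i, (a i).totalDegree ≤ 1)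
    {B D N : ℕ} (hD : e.deg < D)
    (hone : e.ev (fun i => MvPolynomial.eval 1 (a i)) < B)
    (hN : e.ev (fun i => MvPolynomial.eval (pack B D) (a i)) < B ^ N) (x : Fin 4 → ℝ) :
    e.ev (fun i => MvPolynomial.eval₂ (Nat.castRingHom ℝ) x (a i)) =
      ∑ i ∈ Finset.range N,
        (dig B (e.ev fun i => MvPolynomial.eval (pack B D) (a i)) i : ℝ) * mon D x i ∧
      ∀ i < N, dig B (e.ev fun i => MvPolynomial.eval (pack B D) (a i)) i ≤
        e.ev (fun i => MvPolynomial.eval 1 (a i)) := by
  classical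
  set p := e.ev a with hp
  rw [← PE.map_ev (MvPolynomial.eval (pack B D)) a e, ← hp] at hN ⊢
  rw [← PE.map_ev (MvPolynomial.eval 1) a e, ← hp] at hone ⊢
  have hev : e.ev (fun i => MvPolynomial.eval₂ (Nat.castRingHom ℝ) x (a i)) =
      MvPolynomial.eval₂ (Nat.castRingHom ℝ) x p :=
    (PE.map_ev (MvPolynomial.eval₂Hom (Nat.castRingHom ℝ) x) a e).symm
  rw [hev]
  have hB : 0 < B := lt_of_le_of_lt (Nat.zero_le _) hone
  have hm : ∀ m ∈ p.support, ∀ i, m i < D := fun m hmem i => by
    refine lt_of_le_of_lt ?_ hD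
    refine le_trans ?_ (e.totalDegree_ev a ha)
    refine le_trans ?_ (MvPolynomial.le_totalDegree hmem)
    rcases eq_or_ne (m i) 0 with h | h
    · omega
    · exact Finset.single_le_sum (f := fun j => m j) (fun _ _ => Nat.zero_le _)
        (Finsupp.mem_support_iff.2 h)
  set c : ℕ → ℕ := fun i => ∑ m ∈ p.support.filter (fun m : Fin 4 →₀ ℕ => slot D m = i), p.coeff m with hc
  have hc1 : ∀ i, c i ≤ MvPolynomial.eval 1 p := fun i => by
    rw [MvPolynomial.eval_eq']
    simp only [Pi.one_apply, one_pow, Finset.prod_const_one, mul_one, hc]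
    exact Finset.sum_le_sum_of_subset (Finset.filter_subset _ _)
  have hcB : ∀ i, c i < B := fun i => lt_of_le_of_lt (hc1 i) hone
  have hlt : ∀ m ∈ p.support, slot D m < N := fun m hmem => by
    by_contra hh
    have h1 : B ^ slot D m ≤ MvPolynomial.eval (pack B D) p := by
      rw [MvPolynomial.eval_eq']
      refine le_trans ?_ (Finset.single_le_sum (fun k _ => Nat.zero_le _) hmem)
      rw [pack_slot]
      exact Nat.le_mul_of_pos_left _ (Nat.pos_of_ne_zero (MvPolynomial.mem_support_iff.1 hmem))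
    have h2 : B ^ N ≤ B ^ slot D m := Nat.pow_le_pow_right hB (not_lt.1 hh)
    omega
  have hmaps : ∀ m ∈ p.support, slot D m ∈ Finset.range N := fun m hmem =>
    Finset.mem_range.2 (hlt m hmem)
  have hval : MvPolynomial.eval (pack B D) p = ∑ i ∈ Finset.range N, c i * B ^ i := by
    rw [MvPolynomial.eval_eq', ← Finset.sum_fiberwise_of_maps_to hmaps]
    refine Finset.sum_congr rfl fun i _ => ?_
    rw [hc, Finset.sum_mul]
    refine Finset.sum_congr rfl fun m hmem => ?_
    rw [pack_slot, (Finset.mem_filter.1 hmem).2]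
  rw [hval]
  refine ⟨?_, fun i hi => by rw [dig_sum hB c hcB hi]; exact hc1 i⟩
  rw [MvPolynomial.eval₂_eq', ← Finset.sum_fiberwise_of_maps_to hmaps]
  refine Finset.sum_congr rfl fun i hi => ?_
  rw [dig_sum hB c hcB (Finset.mem_range.1 hi), hc, Nat.cast_sum, Finset.sum_mul]
  refine Finset.sum_congr rfl fun m hmem => ?_
  obtain ⟨h1, h2⟩ := Finset.mem_filter.1 hmem
  rw [← h2, mon_slot (hm m h1)]
  rfl

end Vale.Agent.P154.Q4
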