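import Vale.Agent.P154.Q4.Sym
import Vale.Agent.P154.Q4.Forms

/-!
# Symmetries of a checked form

A checked form only sees each argument through symmetric sums and is symmetric in its two
arguments, so positivity on the sorted cell gives positivity on the whole cone.
-/

namespace Vale.Agent.P154.Q4

open scoped BigOperators

theorem lamTerms_symm {B R : ℕ} {MU : List Key} {T : Tab}
    (hP : T.all (fun e => packOK B MU e.2) = true) (u v : Fin 4 → ℝ) : ∀ (L : SV) (ts : List Term),
    lamTerms B R T L = some ts →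
      (ts.map fun t => t.val B MU (MU.map fun k => k.sym u) v).sum =
        (ts.map fun t => t.val B MU (MU.map fun k => k.sym v) u).sum
  | [], ts, h => by
    simp only [lamTerms, Option.some.injEq] at h
    simp [← h]
  | e :: r, ts, h => by
    simp only [lamTerms] at h
    split at h
    · next w ts' hw hts =>
      simp only [Option.some.injEq] at h
      have ih := lamTerms_symm hP u v r ts' hts
      simp only [List.all_eq_true] at hP
      rw [← h, List.map_cons, List.sum_cons, List.map_cons, List.sum_cons, ih]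
      congr 1
      simp only [Term.val, vVal_packOK (hP _ (tget_mem hw))]
      ring
    · simp at h

theorem Key.sym_comp (k : Key) (x : Fin 4 → ℝ) (τ : Equiv.Perm (Fin 4)) :
    k.sym (fun i => x (τ i)) = k.sym x := by
  rw [Key.sym_eq_sum, Key.sym_eq_sum]
  exact Equiv.sum_comp (Equiv.mulLeft τ) fun σ : Equiv.Perm (Fin 4) => ∏ i, x (σ i) ^ k.at' i

theorem svVal_comp (L : SV) (x : Fin 4 → ℝ) (τ : Equiv.Perm (Fin 4)) :
    svVal L (fun i => x (τ i)) = svVal L x := by
  simp only [svVal, Key.sym_comp]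

theorem formVal_comp {MU : List Key} {K : List Row} (hK : rowsKeys MU K = true) (u v : Fin 4 → ℝ)
    (τ π : Equiv.Perm (Fin 4)) :
    formVal K (MU.map Key.pe) (fun i => u (τ i)) (fun i => v (π i)) =
      formVal K (MU.map Key.pe) u v := by
  have hA : ∀ r ∈ K, r.A.ev (fun i => u (τ i)) = r.A.ev u := by
    have h1 := rowsKeys_eq (fun i => u (τ i)) MU K hK
    simp only [Key.sym_comp] at h1
    rw [← rowsKeys_eq u MU K hK] at h1
    exact List.map_inj_left.1 h1
  have hB : ∀ w : Fin 4 → ℝ, ((MU.map Key.pe).map fun e => e.ev w) = MU.map fun k => k.sym w :=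
    fun w => by rw [List.map_map]; rfl
  simp only [formVal, hB, Key.sym_comp]
  exact congrArg List.sum (List.map_congr_left fun r hr => by rw [hA r hr])

theorem pt_root {u : Fin 4 → ℝ} :
    u = pt root ![(u 0 - u 1) / 12, (u 1 - u 2) / 6, (u 2 - u 3) / 4, u 3 / 3] := by
  funext i
  simp only [pt, root, Matrix.cons_val]
  fin_cases i <;> simp <;> ring

/-- Positivity on the sorted cell extends to the whole cone. -/
theorem nonneg_of_root {MU : List Key} {K : List Row} (hK : rowsKeys MU K = true)
    (h : Pos K (MU.map Key.pe) root root) (u v : Fin 4 → ℝ) (hu : ∀ i, 0 ≤ u i)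
    (hv : ∀ i, 0 ≤ v i) : 0 ≤ formVal K (MU.map Key.pe) u v := by
  have srt : ∀ w : Fin 4 → ℝ, ∃ τ : Equiv.Perm (Fin 4),
      w (τ 1) ≤ w (τ 0) ∧ w (τ 2) ≤ w (τ 1) ∧ w (τ 3) ≤ w (τ 2) := fun w => by
    refine ⟨Tuple.sort fun i => -w i, ?_⟩
    have hm := Tuple.monotone_sort fun i => -w i
    have h01 := hm (show (0 : Fin 4) ≤ 1 by decide)
    have h12 := hm (show (1 : Fin 4) ≤ 2 by decide)
    have h23 := hm (show (2 : Fin 4) ≤ 3 by decide)
    simp only [Function.comp_apply, neg_le_neg_iff] at h01 h12 h23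
    exact ⟨h01, h12, h23⟩
  obtain ⟨τ, t1, t2, t3⟩ := srt u
  obtain ⟨π, p1, p2, p3⟩ := srt v
  rw [← formVal_comp hK u v τ π, pt_root (u := fun i => u (τ i)), pt_root (u := fun i => v (π i))]
  refine h _ _ (fun i => ?_) (fun i => ?_)
  · have := hu (τ 3); fin_cases i <;> simp <;> linarith
  · have := hv (π 3); fin_cases i <;> simp <;> linarith

/-- Symmetric forms: one step of the subdivision. -/
theorem pos_step {K : List Row} {Bs : List PE} {C : Cell} (i j : Fin 4) (h : i ≠ j)
    (hs : ∀ u v : Fin 4 → ℝ, formVal K Bs u v = formVal K Bs v u)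
    (hA : Pos K Bs (sub C i j j) (sub C i j j)) (hB : Pos K Bs (sub C i j i) C) : Pos K Bs C C :=
  fun x y hx hy => by
  rcases split_point C h x hx with ⟨z, hz, e⟩ | ⟨z, hz, e⟩
  · rcases split_point C h y hy with ⟨t, ht, e'⟩ | ⟨t, ht, e'⟩
    · rw [e, e']; exact hA z t hz ht
    · rw [hs, e']; exact hB t x ht hx
  · rw [e]; exact hB z y hz hy

/-- Symmetric forms: the four products of the two halves. -/
theorem pos_halves {K : List Row} {Bs : List PE} {C : Cell} (i j : Fin 4) (h : i ≠ j)
    (hs : ∀ u v : Fin 4 → ℝ, formVal K Bs u v = formVal K Bs v u)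
    (hA : Pos K Bs (sub C i j j) (sub C i j j)) (hAB : Pos K Bs (sub C i j j) (sub C i j i))
    (hB : Pos K Bs (sub C i j i) (sub C i j i)) : Pos K Bs C C :=
  fun x y hx hy => by
  rcases split_point C h x hx with ⟨z, hz, e⟩ | ⟨z, hz, e⟩ <;>
    rcases split_point C h y hy with ⟨t, ht, e'⟩ | ⟨t, ht, e'⟩ <;> rw [e, e']
  · exact hA z t hz ht
  · exact hAB z t hz ht
  · rw [hs]; exact hAB t z ht hz
  · exact hB z t hz ht

end Vale.Agent.P154.Q4
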