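import Vale.Agent.P154.Q4.Expr

/-!
# Runs of slots, cells, and packed rows of digits
-/

namespace Vale.Agent.P154.Q4

/-- A cell: four corners. -/
abbrev Cell := Fin 4 → Fin 4 → ℕ

/-- The point with coordinates `z` in a cell. -/
def pt (V : Cell) (z : Fin 4 → ℝ) (i : Fin 4) : ℝ :=
  V 0 i * z 0 + V 1 i * z 1 + V 2 i * z 2 + V 3 i * z 3

/-- The packing point of a cell. -/
def packCell (V : Cell) (B D : ℕ) (i : Fin 4) : ℕ :=
  V 0 i * B + V 1 i * B ^ D + V 2 i * B ^ (D * D) + V 3 i

/-- The all-ones point of a cell. -/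
def oneCell (V : Cell) (i : Fin 4) : ℕ := V 0 i + V 1 i + V 2 i + V 3 i

/-- `∑_{j < 2^L} C^j`. -/
def rep (C : ℕ) : ℕ → ℕ
  | 0 => 1
  | L + 1 => rep C L * (1 + C ^ 2 ^ L)

theorem rep_eq (C : ℕ) : ∀ L, rep C L = ∑ j ∈ Finset.range (2 ^ L), C ^ j
  | 0 => by simp [rep]
  | L + 1 => by
    rw [rep, rep_eq C L, pow_succ, Nat.mul_two, Finset.sum_range_add, mul_add, mul_one,
      Finset.sum_mul]
    simp only [pow_add, mul_comm]

/-- Apply `f` to every nonzero row of digits. -/
def allRows (B : ℕ) (f : List ℕ → Bool) : ℕ → List ℕ → Bool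
  | 0, as => as.all (fun a => a == 0) || f as
  | L + 1, as => as.all (fun a => a == 0) ||
      (allRows B f L (as.map fun a => a % B ^ 2 ^ L) &&
        allRows B f L (as.map fun a => a / B ^ 2 ^ L))

theorem dig_zero (B i : ℕ) : dig B 0 i = 0 := by simp [dig]

theorem dig_mod {B n h i : ℕ} (hi : i < h) : dig B (n % B ^ h) i = dig B n i := by
  obtain ⟨k, rfl⟩ := Nat.exists_eq_add_of_lt hi
  rw [dig, dig, show B ^ (i + k + 1) = B ^ i * (B * B ^ k) by rw [pow_succ, pow_add]; ring,
    Nat.mod_mul_right_div_self, Nat.mod_mul_right_mod]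

theorem dig_div (B n h i : ℕ) : dig B (n / B ^ h) i = dig B n (h + i) := by
  simp [dig, pow_add, Nat.div_div_eq_div_mul]

theorem allRows_sound {α : Type} {B : ℕ} {f : List ℕ → Bool} (K : List α) :
    ∀ (L : ℕ) (a : α → ℕ), (∀ k ∈ K, a k < B ^ 2 ^ L) → allRows B f L (K.map a) = true →
      ∀ i < 2 ^ L, (∀ k ∈ K, dig B (a k) i = 0) ∨ f (K.map fun k => dig B (a k) i) = true := by
  intro L
  induction L with
  | zero =>
    intro a ha h i hi
    obtain rfl : i = 0 := by simpa using hi
    have e : ∀ k ∈ K, dig B (a k) 0 = a k := fun k hk => by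
      rw [dig, pow_zero, Nat.div_one, Nat.mod_eq_of_lt (by simpa using ha k hk)]
    simp only [allRows, Bool.or_eq_true, List.all_eq_true, beq_iff_eq, List.forall_mem_map] at h
    rcases h with h | h
    · exact Or.inl fun k hk => by rw [e k hk, h k hk]
    · right; rwa [List.map_congr_left e]
  | succ L ih =>
    intro a ha h i hi
    simp only [allRows, Bool.or_eq_true, Bool.and_eq_true, List.all_eq_true, beq_iff_eq,
      List.forall_mem_map, List.map_map, Function.comp_def] at h
    rcases h with h | ⟨hl, hr⟩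
    · exact Or.inl fun k hk => by rw [h k hk, dig_zero]
    have hp : B ^ 2 ^ (L + 1) = B ^ 2 ^ L * B ^ 2 ^ L := by rw [pow_succ, pow_mul]; ring
    rcases lt_or_ge i (2 ^ L) with hi2 | hi2
    · have := ih (fun k => a k % B ^ 2 ^ L) (fun k hk => Nat.mod_lt _ (by
          rcases Nat.eq_zero_or_pos (B ^ 2 ^ L) with hz | hz
          · have := ha k hk; rw [hp, hz] at this; omega
          · exact hz)) hl i hi2
      simpa [dig_mod hi2] using this
    · obtain ⟨j, rfl⟩ := Nat.exists_eq_add_of_le hi2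
      have := ih (fun k => a k / B ^ 2 ^ L) (fun k hk => by
        have := ha k hk
        rw [hp] at this
        exact Nat.div_lt_of_lt_mul this) hr j (by rw [pow_succ] at hi; omega)
      simpa [dig_div] using this

/-- The runs inside the group of the third exponent `k`. -/
def inner (D k : ℕ) : List (ℕ × ℕ) := (List.range (D - k)).map fun j => (D * j, D - k - j)

/-- Shift a list of runs. -/
def shiftRuns (S : ℕ) (bl : List (ℕ × ℕ)) : List (ℕ × ℕ) := bl.map fun x => (S + x.1, x.2)

/-- The runs of slots of the monomials of degree below `D` in three variables. -/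
def blocks (D : ℕ) : List (ℕ × ℕ) :=
  (List.range D).flatMap fun k => shiftRuns (D * D * k) (inner D k)

/-- Total length. -/
def blen : List (ℕ × ℕ) → ℕ
  | [] => 0
  | (_, l) :: r => l + blen r

/-- The slot in position `t`. -/
def slotAt : List (ℕ × ℕ) → ℕ → ℕ
  | [], _ => 0
  | (s, l) :: r, t => if t < l then s + t else slotAt r (t - l)

/-- The runs of digits laid side by side. -/
def comp (C n : ℕ) : List (ℕ × ℕ) → ℕ
  | [] => 0
  | (s, l) :: r => n / C ^ s % C ^ l + C ^ l * comp C n r

/-- The runs of digits in place. -/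
def expd (C n : ℕ) : List (ℕ × ℕ) → ℕ
  | [] => 0
  | (s, l) :: r => n / C ^ s % C ^ l * C ^ s + expd C n r

/-- The runs are increasing and end below `N`. -/
def chain (N : ℕ) : ℕ → List (ℕ × ℕ) → Bool
  | o, [] => decide (o ≤ N)
  | o, (s, l) :: r => decide (o ≤ s) && chain N (s + l) r

theorem run_eq (C n s l : ℕ) :
    n / C ^ s % C ^ l = ∑ t ∈ Finset.range l, dig C n (s + t) * C ^ t := by
  rw [← sum_dig]; simp [dig_div]

theorem comp_eq (C n : ℕ) : ∀ bl,
    comp C n bl = ∑ t ∈ Finset.range (blen bl), dig C n (slotAt bl t) * C ^ t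
  | [] => by simp [comp, blen]
  | (s, l) :: r => by
    rw [comp, run_eq, comp_eq C n r, blen, Finset.sum_range_add, Finset.mul_sum]
    refine congrArg₂ (· + ·) (Finset.sum_congr rfl fun t ht => ?_)
      (Finset.sum_congr rfl fun t _ => ?_)
    · simp [slotAt, Finset.mem_range.1 ht]
    · simp [slotAt, pow_add]; ring

theorem chain_le : ∀ {N o : ℕ} (bl : List (ℕ × ℕ)), chain N o bl = true → o ≤ N
  | _, _, [], h => by simpa [chain] using h
  | N, o, (s, l) :: r, h => by
    simp only [chain, Bool.and_eq_true, decide_eq_true_eq] at h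
    have := chain_le r h.2
    omega

theorem expd_dvd (C n : ℕ) : ∀ {N o : ℕ} (bl : List (ℕ × ℕ)), chain N o bl = true →
    C ^ o ∣ expd C n bl
  | _, _, [], _ => dvd_zero _
  | N, o, (s, l) :: r, h => by
    simp only [chain, Bool.and_eq_true, decide_eq_true_eq] at h
    exact dvd_add (dvd_mul_of_dvd_right (pow_dvd_pow C h.1) _)
      ((pow_dvd_pow C (by omega)).trans (expd_dvd C n r h.2))

theorem dig_zero_of_mod {C n o s : ℕ} (hC : 0 < C) (hos : o ≤ s)
    (h : n % C ^ s = n % C ^ o) : ∀ j, o ≤ j → j < s → dig C n j = 0 := by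
  intro j hj hj2
  obtain ⟨l, rfl⟩ := Nat.exists_eq_add_of_le hos
  rw [← sum_dig, ← sum_dig, Finset.sum_range_add, add_eq_left] at h
  obtain ⟨t, rfl⟩ := Nat.exists_eq_add_of_le hj
  rcases Nat.mul_eq_zero.1 (Finset.sum_eq_zero_iff.1 h t (Finset.mem_range.2 (by omega))) with e | e
  · exact e
  · have := Nat.pow_pos hC (n := o + t); omega

theorem sum_runs {C n : ℕ} (hC : 0 < C) (g : ℕ → ℝ) :
    ∀ {N o : ℕ} (bl : List (ℕ × ℕ)), chain N o bl = true → n < C ^ N →
      n % C ^ o + expd C n bl = n →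
      ∑ j ∈ Finset.range N, (dig C n j : ℝ) * g j = ∑ j ∈ Finset.range o, (dig C n j : ℝ) * g j +
        ∑ t ∈ Finset.range (blen bl), (dig C n (slotAt bl t) : ℝ) * g (slotAt bl t) := by
  intro N o bl
  induction bl generalizing o with
  | nil =>
    intro h hn e
    simp only [chain, decide_eq_true_eq] at h
    simp only [expd, add_zero] at e
    obtain ⟨l, rfl⟩ := Nat.exists_eq_add_of_le h
    simp only [blen, Finset.range_zero, Finset.sum_empty, add_zero, Finset.sum_range_add,
      add_eq_left]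
    refine Finset.sum_eq_zero fun t ht => ?_
    rw [dig_zero_of_mod hC h (by rw [Nat.mod_eq_of_lt hn, e]) (o + t) (by omega)
      (by have := Finset.mem_range.1 ht; omega)]
    simp
  | cons sl r ih =>
    obtain ⟨s, l⟩ := sl
    intro h hn e
    have hd := expd_dvd C n r (o := s + l) (N := N) (by
      simp only [chain, Bool.and_eq_true] at h; exact h.2)
    simp only [chain, Bool.and_eq_true, decide_eq_true_eq] at h
    obtain ⟨hos, hr⟩ := h
    simp only [expd] at e
    have e1 : n % C ^ s = n % C ^ o := by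
      conv_lhs => rw [← e]
      obtain ⟨q, hq⟩ := (pow_dvd_pow C (Nat.le_add_right s l)).trans hd
      rw [hq, show n % C ^ o + (n / C ^ s % C ^ l * C ^ s + C ^ s * q) =
        n % C ^ o + C ^ s * (n / C ^ s % C ^ l + q) by ring, Nat.add_mul_mod_self_left]
      exact Nat.mod_eq_of_lt ((Nat.mod_lt _ (Nat.pow_pos hC)).trans_le
        (Nat.pow_le_pow_right hC hos))
    have e2 : n % C ^ (s + l) = n % C ^ s + C ^ s * (n / C ^ s % C ^ l) := by
      rw [pow_add, Nat.mod_mul]
    rw [ih hr hn (by rw [e2, e1]; conv_rhs => rw [← e]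
                     ring), blen, Finset.sum_range_add, Finset.sum_range_add]
    obtain ⟨d, rfl⟩ := Nat.exists_eq_add_of_le hos
    rw [Finset.sum_range_add]
    have hz : ∑ x ∈ Finset.range d, (dig C n (o + x) : ℝ) * g (o + x) = 0 :=
      Finset.sum_eq_zero fun x hx => by
        rw [dig_zero_of_mod hC hos e1 (o + x) (by omega)
          (by have := Finset.mem_range.1 hx; omega)]
        simp
    rw [hz, add_zero, add_assoc]
    congr 1
    refine congrArg₂ (· + ·) (Finset.sum_congr rfl fun t ht => ?_)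
      (Finset.sum_congr rfl fun t _ => ?_)
    · simp [slotAt, Finset.mem_range.1 ht]
    · simp [slotAt]

/-- `l` digits from slot `s`, by shift and mask. -/
def cut (w n s l : ℕ) : ℕ := (n >>> (w * s)) &&& (2 ^ (w * l) - 1)

theorem cut_eq (w n s l : ℕ) : cut w n s l = n / (2 ^ w) ^ s % (2 ^ w) ^ l := by
  rw [cut, Nat.and_two_pow_sub_one_eq_mod, Nat.shiftRight_eq_div_pow, pow_mul, pow_mul]

/-- `comp` by shifts and masks. -/
def compW (w n : ℕ) : List (ℕ × ℕ) → ℕ
  | [] => 0
  | (s, l) :: r => cut w n s l + ((compW w n r) <<< (w * l))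

/-- `expd` by shifts and masks. -/
def expdW (w n : ℕ) : List (ℕ × ℕ) → ℕ
  | [] => 0
  | (s, l) :: r => (cut w n s l <<< (w * s)) + expdW w n r

theorem compW_eq (w n : ℕ) : ∀ bl, compW w n bl = comp (2 ^ w) n bl
  | [] => rfl
  | (s, l) :: r => by
    rw [compW, comp, cut_eq, Nat.shiftLeft_eq, compW_eq w n r, ← pow_mul, ← pow_mul]; ring

theorem expdW_eq (w n : ℕ) : ∀ bl, expdW w n bl = expd (2 ^ w) n bl
  | [] => rfl
  | (s, l) :: r => by rw [expdW, expd, cut_eq, Nat.shiftLeft_eq, expdW_eq w n r, ← pow_mul, ← pow_mul]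

theorem comp_append (C n : ℕ) : ∀ a b, comp C n (a ++ b) = comp C n a + C ^ blen a * comp C n b
  | [], b => by simp [comp, blen]
  | (s, l) :: r, b => by simp only [List.cons_append, comp, blen, comp_append C n r b, pow_add]; ring

theorem expd_append (C n : ℕ) : ∀ a b, expd C n (a ++ b) = expd C n a + expd C n b
  | [], b => by simp [expd]
  | (s, l) :: r, b => by simp only [List.cons_append, expd, expd_append C n r b]; ring

theorem run_shift {C n S W s l : ℕ} (hW : s + l ≤ W) :
    n / C ^ S % C ^ W / C ^ s % C ^ l = n / C ^ (S + s) % C ^ l := by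
  rw [run_eq C (n / C ^ S % C ^ W) s l, run_eq C n (S + s) l]
  refine Finset.sum_congr rfl fun t ht => ?_
  have := Finset.mem_range.1 ht
  rw [dig_mod (by omega), dig_div, Nat.add_assoc]

theorem comp_shift {C n S W : ℕ} : ∀ bl : List (ℕ × ℕ), (∀ x ∈ bl, x.1 + x.2 ≤ W) →
    comp C (n / C ^ S % C ^ W) bl = comp C n (shiftRuns S bl)
  | [], _ => rfl
  | (s, l) :: r, h => by
    simp only [comp, shiftRuns, List.map_cons]
    rw [run_shift (h (s, l) (by simp)), comp_shift r fun x hx => h x (by simp [hx])]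
    rfl

theorem expd_shift {C n S W : ℕ} : ∀ bl : List (ℕ × ℕ), (∀ x ∈ bl, x.1 + x.2 ≤ W) →
    expd C (n / C ^ S % C ^ W) bl * C ^ S = expd C n (shiftRuns S bl)
  | [], _ => by simp [expd, shiftRuns]
  | (s, l) :: r, h => by
    simp only [expd, shiftRuns, List.map_cons]
    rw [run_shift (h (s, l) (by simp)), Nat.add_mul,
      expd_shift r fun x hx => h x (by simp [hx]), pow_add]
    simp only [shiftRuns]
    ring

/-- The runs inside the groups `ks`, side by side. -/
def compB (w D n : ℕ) : List ℕ → ℕ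
  | [] => 0
  | k :: ks => compW w (cut w n (D * D * k) (D * D)) (inner D k) +
      ((compB w D n ks) <<< (w * blen (inner D k)))

/-- The runs inside the groups `ks`, in place. -/
def expdB (w D n : ℕ) : List ℕ → ℕ
  | [] => 0
  | k :: ks => (expdW w (cut w n (D * D * k) (D * D)) (inner D k) <<< (w * (D * D * k))) +
      expdB w D n ks

theorem inner_le (D k : ℕ) : ∀ x ∈ inner D k, x.1 + x.2 ≤ D * D := by
  simp only [inner, List.mem_map, List.mem_range, forall_exists_index, and_imp]
  rintro x j hj rfl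
  have : D * (j + 1) ≤ D * D := Nat.mul_le_mul_left D (by omega)
  rw [Nat.mul_add, Nat.mul_one] at this
  show D * j + (D - k - j) ≤ D * D
  omega

theorem blen_shift (S : ℕ) : ∀ bl, blen (shiftRuns S bl) = blen bl
  | [] => rfl
  | (s, l) :: r => by
    show l + blen (shiftRuns S r) = l + blen r
    rw [blen_shift S r]

theorem compB_eq (w D n : ℕ) : ∀ ks : List ℕ,
    compB w D n ks = comp (2 ^ w) n (ks.flatMap fun k => shiftRuns (D * D * k) (inner D k))
  | [] => rfl
  | k :: ks => by
    rw [compB, List.flatMap_cons, comp_append, compW_eq, cut_eq, comp_shift _ (inner_le D k),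
      compB_eq w D n ks, Nat.shiftLeft_eq, blen_shift, pow_mul, Nat.mul_comm (comp _ _ _)]

theorem expdB_eq (w D n : ℕ) : ∀ ks : List ℕ,
    expdB w D n ks = expd (2 ^ w) n (ks.flatMap fun k => shiftRuns (D * D * k) (inner D k))
  | [] => rfl
  | k :: ks => by
    rw [expdB, List.flatMap_cons, expd_append, expdW_eq, cut_eq, Nat.shiftLeft_eq,
      pow_mul 2 w (D * D * k), expd_shift _ (inner_le D k), expdB_eq w D n ks]

/-- Digitwise comparison of two packed rows by one bit mask. -/
theorem mask_sound {w N : ℕ} (hw : 0 < w) (p n : ℕ → ℕ) (hp : ∀ j < N, p j < 2 ^ (w - 1))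
    (hn : ∀ j < N, n j < 2 ^ (w - 1))
    (h : ((∑ j ∈ Finset.range N, p j * (2 ^ w) ^ j) +
        2 ^ (w - 1) * (∑ j ∈ Finset.range N, (2 ^ w) ^ j) -
        ∑ j ∈ Finset.range N, n j * (2 ^ w) ^ j) &&& (2 ^ (w - 1) * ∑ j ∈ Finset.range N, (2 ^ w) ^ j)
      = 2 ^ (w - 1) * ∑ j ∈ Finset.range N, (2 ^ w) ^ j) :
    ∀ j < N, n j ≤ p j := by
  set H := 2 ^ (w - 1) with hH
  have hH0 : 0 < H := Nat.two_pow_pos _
  have hC : 2 ^ w = H * 2 := by rw [hH, ← pow_succ]; congr 1; omega
  set d : ℕ → ℕ := fun j => if j < N then p j + H - n j else 0 with hd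
  have hdC : ∀ j, d j < 2 ^ w := fun j => by
    simp only [hd]; split
    · have := hp j ‹_›; omega
    · exact Nat.two_pow_pos _
  have hX : (∑ j ∈ Finset.range N, p j * (2 ^ w) ^ j) + H * (∑ j ∈ Finset.range N, (2 ^ w) ^ j) -
      ∑ j ∈ Finset.range N, n j * (2 ^ w) ^ j = ∑ j ∈ Finset.range N, d j * (2 ^ w) ^ j := by
    apply Nat.sub_eq_of_eq_add
    rw [Finset.mul_sum, ← Finset.sum_add_distrib, ← Finset.sum_add_distrib]
    refine Finset.sum_congr rfl fun j hj => ?_
    have hjN := Finset.mem_range.1 hj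
    simp only [hd, if_pos hjN]
    rw [← Nat.add_mul, ← Nat.add_mul, Nat.sub_add_cancel (by have := hn j hjN; omega)]
  rw [hX] at h
  have tb : ∀ (c : ℕ → ℕ), (∀ j, c j < 2 ^ w) → ∀ j < N,
      Nat.testBit (∑ i ∈ Finset.range N, c i * (2 ^ w) ^ i) (w * j + (w - 1)) = decide (H ≤ c j) := by
    intro c hc j hj
    rw [Nat.testBit_eq_decide_div_mod_eq, pow_add, ← hH, pow_mul, ← Nat.div_div_eq_div_mul]
    have e := dig_sum (Nat.two_pow_pos w) c hc hj
    rw [dig] at e
    have e2 : ((∑ i ∈ Finset.range N, c i * (2 ^ w) ^ i) / (2 ^ w) ^ j) / H % 2 = c j / H := by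
      rw [← Nat.mod_mul_right_div_self, ← hC, e]
    rw [e2]
    have h2 : c j < H * 2 := hC ▸ hc j
    by_cases hle : H ≤ c j
    · have : c j / H = 1 := Nat.div_eq_of_lt_le (by omega) (by omega)
      simp [this, hle]
    · simp [Nat.div_eq_of_lt (not_le.1 hle), hle]
  intro j hj
  have hG := congrArg (fun z => Nat.testBit z (w * j + (w - 1))) h
  simp only [Nat.testBit_and, Finset.mul_sum] at hG
  rw [tb d hdC j hj, tb (fun _ => H) (fun _ => by omega) j hj] at hG
  simp only [le_refl, decide_true, Bool.and_true, decide_eq_true_eq] at hG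
  simp only [hd, if_pos hj] at hG
  omega

/-- The chart of a cell with last coordinate one. -/
noncomputable def chart (V : Cell) (i : Fin 4) : MvPolynomial (Fin 4) ℕ :=
  MvPolynomial.C (V 0 i) * MvPolynomial.X 0 + MvPolynomial.C (V 1 i) * MvPolynomial.X 1 +
    MvPolynomial.C (V 2 i) * MvPolynomial.X 2 + MvPolynomial.C (V 3 i)

theorem totalDegree_chart (V : Cell) (i : Fin 4) : (chart V i).totalDegree ≤ 1 := by
  have h : ∀ (c : ℕ) (j : Fin 4),
      (MvPolynomial.C c * MvPolynomial.X j : MvPolynomial (Fin 4) ℕ).totalDegree ≤ 1 :=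
    fun c j => (MvPolynomial.totalDegree_mul _ _).trans (by
      rw [MvPolynomial.totalDegree_C, MvPolynomial.totalDegree_X, Nat.zero_add])
  unfold chart
  refine (MvPolynomial.totalDegree_add _ _).trans (max_le ((MvPolynomial.totalDegree_add _ _).trans
    (max_le ((MvPolynomial.totalDegree_add _ _).trans (max_le (h _ _) (h _ _))) (h _ _))) ?_)
  rw [MvPolynomial.totalDegree_C]
  exact Nat.zero_le _

/-- Replace corner `r` by the sum of the corners `i` and `j`, doubling the others. -/
def sub (W : Cell) (i j r : Fin 4) : Cell :=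
  fun v c => if v = r then W i c + W j c else 2 * W v c

theorem pt_eq_sum (W : Cell) (z : Fin 4 → ℝ) (c : Fin 4) : pt W z c = ∑ v, (W v c : ℝ) * z v := by
  simp [pt, Fin.sum_univ_four]

theorem split_point (W : Cell) {i j : Fin 4} (h : i ≠ j) (z : Fin 4 → ℝ) (hz : ∀ v, 0 ≤ z v) :
    (∃ z' : Fin 4 → ℝ, (∀ v, 0 ≤ z' v) ∧ pt W z = pt (sub W i j j) z') ∨
    (∃ z' : Fin 4 → ℝ, (∀ v, 0 ≤ z' v) ∧ pt W z = pt (sub W i j i) z') := by
  rcases le_total (z j) (z i) with hle | hle
  · left
    refine ⟨fun v => if v = j then z j else if v = i then (z i - z j) / 2 else z v / 2, fun v => ?_,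
      funext fun c => ?_⟩
    · have := hz v; simp only; split_ifs <;> linarith [hz j]
    · rw [pt_eq_sum, pt_eq_sum]
      fin_cases i <;> fin_cases j <;> simp_all [Fin.sum_univ_four, sub] <;> ring
  · right
    refine ⟨fun v => if v = i then z i else if v = j then (z j - z i) / 2 else z v / 2, fun v => ?_,
      funext fun c => ?_⟩
    · have := hz v; simp only; split_ifs <;> linarith [hz i]
    · rw [pt_eq_sum, pt_eq_sum]
      fin_cases i <;> fin_cases j <;> simp_all [Fin.sum_univ_four, sub] <;> ring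


end Vale.Agent.P154.Q4
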