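import Vale.Agent.P154.Q4.CertF
import Vale.Agent.P154.Q4.CertX

/-!
# One-variable facts on the interpolating polynomials

Each is nonnegative on the range of the total weight of a product, by exact Bernstein expansions.
-/

namespace Vale.Agent.P154.Q4

/-- The weight left to the trivial bound. -/
def F.gap (s : ℝ) : ℝ := 5277655813324800000 - 128 * s ^ 4 * poly F.polA s
/-- Its positive factor. -/
noncomputable def F.cofac (s : ℝ) : ℝ := (329853488332800000 : ℝ) * s ^ 0 + (164926744166400000 : ℝ) * s ^ 1 + (61847529062400000 : ℝ) * s ^ 2 + (20615843020800000 : ℝ) * s ^ 3 + (-68780141001572352 : ℝ) * s ^ 4 + (30771858987024384 : ℝ) * s ^ 5 + (-6565671613759488 : ℝ) * s ^ 6 + (808870558040064 : ℝ) * s ^ 7 + (-60798926389248 : ℝ) * s ^ 8 + (2761138864128 : ℝ) * s ^ 9 + (-69798580224 : ℝ) * s ^ 10 + (755539584 : ℝ) * s ^ 11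

theorem F.gap_eq (s : ℝ) : F.gap s = (4 - s) ^ 2 * F.cofac s := by
  simp only [F.gap, F.cofac, F.polA, poly]
  push_cast
  ring

theorem F.polB_eq (s : ℝ) : 24 * poly F.polB s = (-5 / 8) * s * F.gap s := by
  simp only [F.gap, F.polA, F.polB, poly]
  push_cast
  ring

theorem F.cofac_piece0 {s : ℝ} (h1 : (0 : ℝ) ≤ s) (h2 : s ≤ (4 : ℝ)) : 0 ≤ F.cofac s := by
  have e : F.cofac s = (78643200000 : ℝ) * ((s - (0 : ℝ)) ^ 0 * ((4 : ℝ) - s) ^ 11) +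
      (1022361600000 : ℝ) * ((s - (0 : ℝ)) ^ 1 * ((4 : ℝ) - s) ^ 10) +
      (6134169600000 : ℝ) * ((s - (0 : ℝ)) ^ 2 * ((4 : ℝ) - s) ^ 9) +
      (22491955200000 : ℝ) * ((s - (0 : ℝ)) ^ 3 * ((4 : ℝ) - s) ^ 8) +
      (51638665347072 : ℝ) * ((s - (0 : ℝ)) ^ 4 * ((4 : ℝ) - s) ^ 7) +
      (76116041515008 : ℝ) * ((s - (0 : ℝ)) ^ 5 * ((4 : ℝ) - s) ^ 6) +
      (73818574516224 : ℝ) * ((s - (0 : ℝ)) ^ 6 * ((4 : ℝ) - s) ^ 5) +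
      (47590013220864 : ℝ) * ((s - (0 : ℝ)) ^ 7 * ((4 : ℝ) - s) ^ 4) +
      (20178376449024 : ℝ) * ((s - (0 : ℝ)) ^ 8 * ((4 : ℝ) - s) ^ 3) +
      (5399179926528 : ℝ) * ((s - (0 : ℝ)) ^ 9 * ((4 : ℝ) - s) ^ 2) +
      (825208823808 : ℝ) * ((s - (0 : ℝ)) ^ 10 * ((4 : ℝ) - s) ^ 1) +
      (54842013312 : ℝ) * ((s - (0 : ℝ)) ^ 11 * ((4 : ℝ) - s) ^ 0) := by
    simp only [F.cofac]; ring
  have := sub_nonneg.2 h1
  have := sub_nonneg.2 h2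
  rw [e]; positivity

theorem F.cofac_piece1 {s : ℝ} (h1 : (4 : ℝ) ≤ s) (h2 : s ≤ (6 : ℝ)) : 0 ≤ F.cofac s := by
  have e : F.cofac s = (112316443262976 : ℝ) * ((s - (4 : ℝ)) ^ 0 * ((6 : ℝ) - s) ^ 11) +
      (1008207478259712 : ℝ) * ((s - (4 : ℝ)) ^ 1 * ((6 : ℝ) - s) ^ 10) +
      (3988332442484736 : ℝ) * ((s - (4 : ℝ)) ^ 2 * ((6 : ℝ) - s) ^ 9) +
      (9142035770867712 : ℝ) * ((s - (4 : ℝ)) ^ 3 * ((6 : ℝ) - s) ^ 8) +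
      (13426393770393600 : ℝ) * ((s - (4 : ℝ)) ^ 4 * ((6 : ℝ) - s) ^ 7) +
      (13187346230034432 : ℝ) * ((s - (4 : ℝ)) ^ 5 * ((6 : ℝ) - s) ^ 6) +
      (8781190493921280 : ℝ) * ((s - (4 : ℝ)) ^ 6 * ((6 : ℝ) - s) ^ 5) +
      (3946624104148992 : ℝ) * ((s - (4 : ℝ)) ^ 7 * ((6 : ℝ) - s) ^ 4) +
      (1184037066064896 : ℝ) * ((s - (4 : ℝ)) ^ 8 * ((6 : ℝ) - s) ^ 3) +
      (239539960816128 : ℝ) * ((s - (4 : ℝ)) ^ 9 * ((6 : ℝ) - s) ^ 2) +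
      (34703471742720 : ℝ) * ((s - (4 : ℝ)) ^ 10 * ((6 : ℝ) - s) ^ 1) +
      (3220899282816 : ℝ) * ((s - (4 : ℝ)) ^ 11 * ((6 : ℝ) - s) ^ 0) := by
    simp only [F.cofac]; ring
  have := sub_nonneg.2 h1
  have := sub_nonneg.2 h2
  rw [e]; positivity

theorem F.cofac_piece2 {s : ℝ} (h1 : (6 : ℝ) ≤ s) (h2 : s ≤ (8 : ℝ)) : 0 ≤ F.cofac s := by
  have e : F.cofac s = (3220899282816 : ℝ) * ((s - (6 : ℝ)) ^ 0 * ((8 : ℝ) - s) ^ 11) +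
      (36156312479232 : ℝ) * ((s - (6 : ℝ)) ^ 1 * ((8 : ℝ) - s) ^ 10) +
      (254068368181248 : ℝ) * ((s - (6 : ℝ)) ^ 2 * ((8 : ℝ) - s) ^ 9) +
      (1132644368252928 : ℝ) * ((s - (6 : ℝ)) ^ 3 * ((8 : ℝ) - s) ^ 8) +
      (3186800744890368 : ℝ) * ((s - (6 : ℝ)) ^ 4 * ((8 : ℝ) - s) ^ 7) +
      (5844359174946816 : ℝ) * ((s - (6 : ℝ)) ^ 5 * ((8 : ℝ) - s) ^ 6) +
      (7180194320744448 : ℝ) * ((s - (6 : ℝ)) ^ 6 * ((8 : ℝ) - s) ^ 5) +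
      (5970121558327296 : ℝ) * ((s - (6 : ℝ)) ^ 7 * ((8 : ℝ) - s) ^ 4) +
      (3321620802306048 : ℝ) * ((s - (6 : ℝ)) ^ 8 * ((8 : ℝ) - s) ^ 3) +
      (1186055923433472 : ℝ) * ((s - (6 : ℝ)) ^ 9 * ((8 : ℝ) - s) ^ 2) +
      (245976803573760 : ℝ) * ((s - (6 : ℝ)) ^ 10 * ((8 : ℝ) - s) ^ 1) +
      (22545357078528 : ℝ) * ((s - (6 : ℝ)) ^ 11 * ((8 : ℝ) - s) ^ 0) := by
    simp only [F.cofac]; ring
  have := sub_nonneg.2 h1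
  have := sub_nonneg.2 h2
  rw [e]; positivity

theorem F.cofac_piece3 {s : ℝ} (h1 : (8 : ℝ) ≤ s) (h2 : s ≤ (12 : ℝ)) : 0 ≤ F.cofac s := by
  have e : F.cofac s = (11008475136 : ℝ) * ((s - (8 : ℝ)) ^ 0 * ((12 : ℝ) - s) ^ 11) +
      (123067957248 : ℝ) * ((s - (8 : ℝ)) ^ 1 * ((12 : ℝ) - s) ^ 10) +
      (559359000576 : ℝ) * ((s - (8 : ℝ)) ^ 2 * ((12 : ℝ) - s) ^ 9) +
      (1327845801984 : ℝ) * ((s - (8 : ℝ)) ^ 3 * ((12 : ℝ) - s) ^ 8) +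
      (1761198833664 : ℝ) * ((s - (8 : ℝ)) ^ 4 * ((12 : ℝ) - s) ^ 7) +
      (1295227281408 : ℝ) * ((s - (8 : ℝ)) ^ 5 * ((12 : ℝ) - s) ^ 6) +
      (525649625088 : ℝ) * ((s - (8 : ℝ)) ^ 6 * ((12 : ℝ) - s) ^ 5) +
      (208110336000 : ℝ) * ((s - (8 : ℝ)) ^ 7 * ((12 : ℝ) - s) ^ 4) +
      (176171016192 : ℝ) * ((s - (8 : ℝ)) ^ 8 * ((12 : ℝ) - s) ^ 3) +
      (107560177152 : ℝ) * ((s - (8 : ℝ)) ^ 9 * ((12 : ℝ) - s) ^ 2) +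
      (31066359552 : ℝ) * ((s - (8 : ℝ)) ^ 10 * ((12 : ℝ) - s) ^ 1) +
      (3397296000 : ℝ) * ((s - (8 : ℝ)) ^ 11 * ((12 : ℝ) - s) ^ 0) := by
    simp only [F.cofac]; ring
  have := sub_nonneg.2 h1
  have := sub_nonneg.2 h2
  rw [e]; positivity

theorem F.cofac_piece4 {s : ℝ} (h1 : (12 : ℝ) ≤ s) (h2 : s ≤ (16 : ℝ)) : 0 ≤ F.cofac s := by
  have e : F.cofac s = (3397296000 : ℝ) * ((s - (12 : ℝ)) ^ 0 * ((16 : ℝ) - s) ^ 11) +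
      (43674152448 : ℝ) * ((s - (12 : ℝ)) ^ 1 * ((16 : ℝ) - s) ^ 10) +
      (233638106112 : ℝ) * ((s - (12 : ℝ)) ^ 2 * ((16 : ℝ) - s) ^ 9) +
      (652398173184 : ℝ) * ((s - (12 : ℝ)) ^ 3 * ((16 : ℝ) - s) ^ 8) +
      (992057296896 : ℝ) * ((s - (12 : ℝ)) ^ 4 * ((16 : ℝ) - s) ^ 7) +
      (779836280832 : ℝ) * ((s - (12 : ℝ)) ^ 5 * ((16 : ℝ) - s) ^ 6) +
      (317526589440 : ℝ) * ((s - (12 : ℝ)) ^ 6 * ((16 : ℝ) - s) ^ 5) +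
      (263997358080 : ℝ) * ((s - (12 : ℝ)) ^ 7 * ((16 : ℝ) - s) ^ 4) +
      (352746209280 : ℝ) * ((s - (12 : ℝ)) ^ 8 * ((16 : ℝ) - s) ^ 3) +
      (173590708224 : ℝ) * ((s - (12 : ℝ)) ^ 9 * ((16 : ℝ) - s) ^ 2) +
      (15212740608 : ℝ) * ((s - (12 : ℝ)) ^ 10 * ((16 : ℝ) - s) ^ 1) +
      (1837105152 : ℝ) * ((s - (12 : ℝ)) ^ 11 * ((16 : ℝ) - s) ^ 0) := by
    simp only [F.cofac]; ring
  have := sub_nonneg.2 h1
  have := sub_nonneg.2 h2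
  rw [e]; positivity

theorem F.gap_nonneg {s : ℝ} (h0 : 0 ≤ s) (h16 : s ≤ 16) : 0 ≤ F.gap s := by
  rw [F.gap_eq]
  rcases le_total s (4 : ℝ) with h | h
  · exact mul_nonneg (by positivity) (F.cofac_piece0 (by linarith) (by linarith))
  rcases le_total s (6 : ℝ) with h | h
  · exact mul_nonneg (by positivity) (F.cofac_piece1 (by linarith) (by linarith))
  rcases le_total s (8 : ℝ) with h | h
  · exact mul_nonneg (by positivity) (F.cofac_piece2 (by linarith) (by linarith))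
  rcases le_total s (12 : ℝ) with h | h
  · exact mul_nonneg (by positivity) (F.cofac_piece3 (by linarith) (by linarith))
  exact mul_nonneg (by positivity) (F.cofac_piece4 (by linarith) (by linarith))

/-- The weight left to the trivial bound. -/
def X.gap (s : ℝ) : ℝ := 393216000 - 48 * s ^ 1 * poly X.polA s
/-- Its positive factor. -/
noncomputable def X.cofac (s : ℝ) : ℝ := (1536000 : ℝ) * s ^ 0 + (-415488 : ℝ) * s ^ 1 + (28128 : ℝ) * s ^ 2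

theorem X.gap_eq (s : ℝ) : X.gap s = (4 - s) ^ 4 * X.cofac s := by
  simp only [X.gap, X.cofac, X.polA, poly]
  push_cast
  ring

theorem X.polB_eq (s : ℝ) : 24 * poly X.polB s = (1 / 4) * s * X.gap s := by
  simp only [X.gap, X.polA, X.polB, poly]
  push_cast
  ring

theorem X.cofac_piece0 {s : ℝ} (h1 : (0 : ℝ) ≤ s) (h2 : s ≤ (4 : ℝ)) : 0 ≤ X.cofac s := by
  have e : X.cofac s = (96000 : ℝ) * ((s - (0 : ℝ)) ^ 0 * ((4 : ℝ) - s) ^ 2) +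
      (88128 : ℝ) * ((s - (0 : ℝ)) ^ 1 * ((4 : ℝ) - s) ^ 1) +
      (20256 : ℝ) * ((s - (0 : ℝ)) ^ 2 * ((4 : ℝ) - s) ^ 0) := by
    simp only [X.cofac]; ring
  have := sub_nonneg.2 h1
  have := sub_nonneg.2 h2
  rw [e]; positivity

theorem X.cofac_piece1 {s : ℝ} (h1 : (4 : ℝ) ≤ s) (h2 : s ≤ (6 : ℝ)) : 0 ≤ X.cofac s := by
  have e : X.cofac s = (81024 : ℝ) * ((s - (4 : ℝ)) ^ 0 * ((6 : ℝ) - s) ^ 2) +
      (66816 : ℝ) * ((s - (4 : ℝ)) ^ 1 * ((6 : ℝ) - s) ^ 1) +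
      (13920 : ℝ) * ((s - (4 : ℝ)) ^ 2 * ((6 : ℝ) - s) ^ 0) := by
    simp only [X.cofac]; ring
  have := sub_nonneg.2 h1
  have := sub_nonneg.2 h2
  rw [e]; positivity

theorem X.cofac_piece2 {s : ℝ} (h1 : (6 : ℝ) ≤ s) (h2 : s ≤ (7 : ℝ)) : 0 ≤ X.cofac s := by
  have e : X.cofac s = (55680 : ℝ) * ((s - (6 : ℝ)) ^ 0 * ((7 : ℝ) - s) ^ 2) +
      (33408 : ℝ) * ((s - (6 : ℝ)) ^ 1 * ((7 : ℝ) - s) ^ 1) +
      (5856 : ℝ) * ((s - (6 : ℝ)) ^ 2 * ((7 : ℝ) - s) ^ 0) := by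
    simp only [X.cofac]; ring
  have := sub_nonneg.2 h1
  have := sub_nonneg.2 h2
  rw [e]; positivity

theorem X.cofac_piece3 {s : ℝ} (h1 : (7 : ℝ) ≤ s) (h2 : s ≤ ((15 : ℝ) / 2)) : 0 ≤ X.cofac s := by
  have e : X.cofac s = (23424 : ℝ) * ((s - (7 : ℝ)) ^ 0 * (((15 : ℝ) / 2) - s) ^ 2) +
      (3456 : ℝ) * ((s - (7 : ℝ)) ^ 1 * (((15 : ℝ) / 2) - s) ^ 1) +
      (8160 : ℝ) * ((s - (7 : ℝ)) ^ 2 * (((15 : ℝ) / 2) - s) ^ 0) := by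
    simp only [X.cofac]; ring
  have := sub_nonneg.2 h1
  have := sub_nonneg.2 h2
  rw [e]; positivity

theorem X.cofac_piece4 {s : ℝ} (h1 : ((15 : ℝ) / 2) ≤ s) (h2 : s ≤ (8 : ℝ)) : 0 ≤ X.cofac s := by
  have e : X.cofac s = (8160 : ℝ) * ((s - ((15 : ℝ) / 2)) ^ 0 * ((8 : ℝ) - s) ^ 2) +
      (29184 : ℝ) * ((s - ((15 : ℝ) / 2)) ^ 1 * ((8 : ℝ) - s) ^ 1) +
      (49152 : ℝ) * ((s - ((15 : ℝ) / 2)) ^ 2 * ((8 : ℝ) - s) ^ 0) := by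
    simp only [X.cofac]; ring
  have := sub_nonneg.2 h1
  have := sub_nonneg.2 h2
  rw [e]; positivity

theorem X.cofac_piece5 {s : ℝ} (h1 : (8 : ℝ) ≤ s) (h2 : s ≤ (16 : ℝ)) : 0 ≤ X.cofac s := by
  have e : X.cofac s = (192 : ℝ) * ((s - (8 : ℝ)) ^ 0 * ((16 : ℝ) - s) ^ 2) +
      (4704 : ℝ) * ((s - (8 : ℝ)) ^ 1 * ((16 : ℝ) - s) ^ 1) +
      (32640 : ℝ) * ((s - (8 : ℝ)) ^ 2 * ((16 : ℝ) - s) ^ 0) := by
    simp only [X.cofac]; ring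
  have := sub_nonneg.2 h1
  have := sub_nonneg.2 h2
  rw [e]; positivity

theorem X.gap_nonneg {s : ℝ} (h0 : 0 ≤ s) (h16 : s ≤ 16) : 0 ≤ X.gap s := by
  rw [X.gap_eq]
  rcases le_total s (4 : ℝ) with h | h
  · exact mul_nonneg (by positivity) (X.cofac_piece0 (by linarith) (by linarith))
  rcases le_total s (6 : ℝ) with h | h
  · exact mul_nonneg (by positivity) (X.cofac_piece1 (by linarith) (by linarith))
  rcases le_total s (7 : ℝ) with h | h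
  · exact mul_nonneg (by positivity) (X.cofac_piece2 (by linarith) (by linarith))
  rcases le_total s ((15 : ℝ) / 2) with h | h
  · exact mul_nonneg (by positivity) (X.cofac_piece3 (by linarith) (by linarith))
  rcases le_total s (8 : ℝ) with h | h
  · exact mul_nonneg (by positivity) (X.cofac_piece4 (by linarith) (by linarith))
  exact mul_nonneg (by positivity) (X.cofac_piece5 (by linarith) (by linarith))

end Vale.Agent.P154.Q4
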