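import Vale.Agent.P154.Q4.Tables

/-!
# The symmetric forms and the passage from a form to a sum over relabellings

With `s` the sum of the coordinates and `E i = 4 W i - s` we expand `∑ E²`, `∑ E³`, `∑ E⁴` and the
class functional in monomial symmetric sums, and show that a checked form equals a sum over the
twenty-four relabellings plus rank-one corrections.
-/

namespace Vale.Agent.P154.Q4

open scoped BigOperators

/-- The sum of the coordinates. -/
def rs (x : Fin 4 → ℝ) : ℝ := x 0 + x 1 + x 2 + x 3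
/-- `∑ E²`. -/
def rS (x : Fin 4 → ℝ) : ℝ := ∑ i, (4 * x i - rs x) ^ 2
/-- `∑ E³`. -/
def rM (x : Fin 4 → ℝ) : ℝ := ∑ i, (4 * x i - rs x) ^ 3
/-- `∑ E⁴`. -/
def rQ (x : Fin 4 → ℝ) : ℝ := ∑ i, (4 * x i - rs x) ^ 4
/-- `32768` times the class functional, homogeneous of degree five. -/
def rF (x : Fin 4 → ℝ) : ℝ :=
  rM x * (32 * rs x ^ 2 + rS x) - 4 * rs x * (rS x ^ 2 + rQ x)
/-- The third elementary symmetric function. -/
def rE3 (x : Fin 4 → ℝ) : ℝ := x 0 * x 1 * x 2 + x 0 * x 1 * x 3 + x 0 * x 2 * x 3 + x 1 * x 2 * x 3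
/-- The product. -/
def rE4 (x : Fin 4 → ℝ) : ℝ := x 0 * x 1 * x 2 * x 3

/-- The constant, of value `24`. -/
def vOne : SV := [(⟨0, 0, 0, 0⟩, 1)]
/-- `∑ E²` as a vector. -/
def vS : SV := [(⟨2, 0, 0, 0⟩, 2), (⟨1, 1, 0, 0⟩, -2)]
/-- `∑ E³` as a vector. -/
def vM : SV := [(⟨3, 0, 0, 0⟩, 4), (⟨2, 1, 0, 0⟩, -12), (⟨1, 1, 1, 0⟩, 8)]
/-- `∑ E⁴` as a vector. -/
def vQ : SV := [(⟨4, 0, 0, 0⟩, 14), (⟨3, 1, 0, 0⟩, -56), (⟨2, 2, 0, 0⟩, 30), (⟨2, 1, 1, 0⟩, 24),
  (⟨1, 1, 1, 1⟩, -12)]
/-- Six times the third elementary symmetric function. -/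
def vE3 : SV := [(⟨1, 1, 1, 0⟩, 1)]
/-- Twenty-four times the product. -/
def vE4 : SV := [(⟨1, 1, 1, 1⟩, 1)]
/-- The class functional as a vector. -/
def vF : SV :=
  svNorm (svScale 32 (svPad 2 vM) ++ svMul vM vS ++ svScale (-4) (svPad 1 (svMul vS vS ++ vQ)))

theorem val_vOne (x : Fin 4 → ℝ) : svVal vOne x = 24 := by
  simp [vOne, svVal, Key.sym, symSum, perms]
  norm_num

theorem val_vS (x : Fin 4 → ℝ) : svVal vS x = rS x := by
  simp only [vS, svVal, Key.sym, symSum, perms, List.map_cons, List.map_nil, List.sum_cons,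
    List.sum_nil, Matrix.cons_val, rS, rs, Fin.sum_univ_four]
  push_cast; ring

theorem val_vM (x : Fin 4 → ℝ) : svVal vM x = rM x := by
  simp only [vM, svVal, Key.sym, symSum, perms, List.map_cons, List.map_nil, List.sum_cons,
    List.sum_nil, Matrix.cons_val, rM, rs, Fin.sum_univ_four]
  push_cast; ring

theorem val_vQ (x : Fin 4 → ℝ) : svVal vQ x = rQ x := by
  simp only [vQ, svVal, Key.sym, symSum, perms, List.map_cons, List.map_nil, List.sum_cons,
    List.sum_nil, Matrix.cons_val, rQ, rs, Fin.sum_univ_four]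
  push_cast; ring

theorem val_vE3 (x : Fin 4 → ℝ) : svVal vE3 x = 6 * rE3 x := by
  simp only [vE3, svVal, Key.sym, symSum, perms, List.map_cons, List.map_nil, List.sum_cons,
    List.sum_nil, Matrix.cons_val, rE3]
  push_cast; ring

theorem val_vE4 (x : Fin 4 → ℝ) : svVal vE4 x = 24 * rE4 x := by
  simp only [vE4, svVal, Key.sym, symSum, perms, List.map_cons, List.map_nil, List.sum_cons,
    List.sum_nil, Matrix.cons_val, rE4]
  push_cast; ring

theorem val_vF (x : Fin 4 → ℝ) : svVal vF x = rF x := by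
  simp only [vF, svVal_norm, svVal_append, svVal_scale, svVal_pad, svVal_mul, val_vM, val_vS,
    val_vQ, rF, rs]
  push_cast; ring

/-- Terms of a sum over relabellings. -/
def lamTerms (B R : ℕ) (T : Tab) : SV → Option (List Term)
  | [] => some []
  | e :: r =>
    match tget e.1 T, lamTerms B R T r with
    | some v, some ts =>
      some (⟨decide (0 ≤ e.2), e.2.natAbs * R * 16 ^ e.1.deg, v, packList B v⟩ :: ts)
    | _, _ => none

/-- A vector may be packed. -/
def packOK (B : ℕ) (MU : List Key) (v : List ℕ) : Bool :=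
  vSmall B B MU (packList B v) && v.all fun a => decide (a < B)

theorem vVal_packOK {B : ℕ} {MU : List Key} {v : List ℕ} (h : packOK B MU v = true)
    (x : Fin 4 → ℝ) : vVal B MU (packList B v) x = dotR v (MU.map fun k => k.sym x) := by
  simp only [packOK, Bool.and_eq_true, List.all_eq_true, decide_eq_true_eq] at h
  exact vVal_packList x MU v h.1 h.2

/-- The four terms of a product of two signed vectors. -/
def pairTerms (B : ℕ) (s : Bool) (c : ℕ) (p n q r : List ℕ) : List Term :=
  [⟨s, c, p, packList B q⟩, ⟨!s, c, p, packList B r⟩, ⟨!s, c, n, packList B q⟩,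
    ⟨s, c, n, packList B r⟩]

/-- A signed vector packs. -/
def pairOK (B : ℕ) (MU : List Key) (p n : List ℕ) : Bool := packOK B MU p && packOK B MU n

theorem pairTerms_val {B c : ℕ} {s : Bool} {MU : List Key} {p n q r : List ℕ}
    (h : pairOK B MU q r = true) (u v : Fin 4 → ℝ) :
    ((pairTerms B s c p n q r).map fun t => t.val B MU (MU.map fun k => k.sym u) v).sum =
      (if s then 1 else -1) * (c : ℝ) * (svVal (svOf MU p) u - svVal (svOf MU n) u) *
        (svVal (svOf MU q) v - svVal (svOf MU r) v) := by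
  simp only [pairOK, Bool.and_eq_true] at h
  cases s <;>
    simp [pairTerms, Term.val, vVal_packOK h.1, vVal_packOK h.2, svVal_of] <;> ring

theorem lamTerms_val {D B R : ℕ} {MU : List Key} {T : Tab} (hT : tabOK D MU T = true)
    (hP : T.all (fun e => packOK B MU e.2) = true) (u v : Fin 4 → ℝ) (hu : rs u = 4)
    (hv : rs v = 4) : ∀ (L : SV) (ts : List Term), lamTerms B R T L = some ts →
      (ts.map fun t => t.val B MU (MU.map fun k => k.sym u) v).sum =
        (R : ℝ) * 16 ^ D * ∑ σ : Equiv.Perm (Fin 4), svVal L (fun i => u i * v (σ i))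
  | [], ts, h => by
    simp only [lamTerms, Option.some.injEq] at h
    simp [← h, svVal]
  | e :: r, ts, h => by
    simp only [lamTerms] at h
    split at h
    · next w ts' hw hts =>
      simp only [Option.some.injEq] at h
      have hm := tget_mem hw
      obtain ⟨hd, hval⟩ := tab_sound u hT e.1 w hm
      obtain ⟨-, hval'⟩ := tab_sound v hT e.1 w hm
      have ih := lamTerms_val hT hP u v hu hv r ts' hts
      simp only [List.all_eq_true] at hP
      rw [← h, List.map_cons, List.sum_cons, ih, sum_perm_svVal,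
        sum_perm_svVal, List.map_cons, List.sum_cons, mul_add]
      congr 1
      simp only [Term.val, vVal_packOK (hP _ hm), hval, hval', show u 0 + u 1 + u 2 + u 3 = 4 from hu,
        show v 0 + v 1 + v 2 + v 3 = 4 from hv, Nat.cast_mul, Nat.cast_pow, Nat.cast_ofNat]
      have hz : (if decide (0 ≤ e.2) = true then (1 : ℝ) else -1) * (e.2.natAbs : ℝ) = (e.2 : ℝ) := by
        rw [Nat.cast_natAbs]
        rcases le_or_gt 0 e.2 with hz | hz
        · simp [hz, abs_of_nonneg]
        · simp [not_le.2 hz, abs_of_neg hz]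
      rw [show (16 : ℝ) ^ D = 16 ^ e.1.deg * (4 ^ (D - e.1.deg) * 4 ^ (D - e.1.deg)) by
        rw [← mul_pow, show (4 : ℝ) * 4 = 16 by norm_num, ← pow_add, Nat.add_sub_cancel' hd]]
      linear_combination ((R : ℝ) * 16 ^ e.1.deg * (4 ^ (D - e.1.deg) * e.1.sym u) *
        (4 ^ (D - e.1.deg) * e.1.sym v)) * hz
    · simp at h

/-- The rows are indexed by the symmetric sums. -/
def rowsKeys : List Key → List Row → Bool
  | [], [] => true
  | k :: ks, r :: rs => (match r.A with
      | .sym a b c d => k.eqb ⟨a, b, c, d⟩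
      | _ => false) && rowsKeys ks rs
  | _, _ => false

theorem rowsKeys_eq (u : Fin 4 → ℝ) : ∀ (ks : List Key) (K : List Row), rowsKeys ks K = true →
    K.map (fun r => r.A.ev u) = ks.map fun k => k.sym u
  | [], [], _ => rfl
  | [], _ :: _, h => by simp [rowsKeys] at h
  | _ :: _, [], h => by simp [rowsKeys] at h
  | k :: ks, ⟨A, P, N⟩ :: K, h => by
    simp only [rowsKeys, Bool.and_eq_true] at h
    cases A <;> simp at h
    obtain rfl := Key.eq_of_eqb h.1
    simp [PE.ev, Key.sym, rowsKeys_eq u ks K h.2]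

end Vale.Agent.P154.Q4
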