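import Vale.Agent.P154.Q4.Basis

/-!
# Checked tables

Products and equalities of sparse vectors, the table taking each symmetric sum up to a fixed
degree, and the test that the coefficient rows of a bilinear form are a given combination of
rank-one forms.
-/

namespace Vale.Agent.P154.Q4

open scoped BigOperators

/-- An entry by place. -/
def Key.at' (k : Key) (i : Fin 4) : ℕ := ![k.a, k.b, k.c, k.d] i

/-- Decreasing order. -/
def Key.sort (k : Key) : Key := k.s01.s23.s12.s01.s23.s12

theorem Key.sym_sort {R : Type} [CommSemiring R] (k : Key) (x : Fin 4 → R) :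
    k.sort.sym x = k.sym x := by
  simp only [Key.sort, Key.sym_s01, Key.sym_s12, Key.sym_s23]

theorem Key.sym_eq_sum (k : Key) (x : Fin 4 → ℝ) :
    k.sym x = ∑ σ : Equiv.Perm (Fin 4), ∏ i, x (σ i) ^ k.at' i := by
  rw [Key.sym, symSum, ← sum_perms]
  exact Finset.sum_congr rfl fun σ _ => by
    simp only [Fin.prod_univ_four, Key.at', Matrix.cons_val]; ring

/-- The keys of a product of two symmetric sums. -/
def Key.mulKeys (k l : Key) : List Key :=
  perms.map fun s =>
    (Key.mk (k.a + l.at' (s 0)) (k.b + l.at' (s 1)) (k.c + l.at' (s 2)) (k.d + l.at' (s 3))).sort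

theorem Key.sym_mul (k l : Key) (x : Fin 4 → ℝ) :
    k.sym x * l.sym x = ((k.mulKeys l).map fun m => m.sym x).sum := by
  have h : ((k.mulKeys l).map fun m => m.sym x).sum = ∑ τ : Equiv.Perm (Fin 4),
      ∑ σ : Equiv.Perm (Fin 4), ∏ i, x (σ i) ^ (k.at' i + l.at' (τ i)) := by
    simp only [Key.mulKeys, List.map_map, Function.comp_def, Key.sym_sort]
    rw [← sum_perms]
    refine Finset.sum_congr rfl fun τ _ => ?_
    rw [Key.sym_eq_sum]
    exact Finset.sum_congr rfl fun σ _ => Finset.prod_congr rfl fun i _ => by
      fin_cases i <;> rfl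
  rw [h, Finset.sum_comm, Key.sym_eq_sum, Key.sym_eq_sum, Finset.sum_mul]
  refine Finset.sum_congr rfl fun σ _ => ?_
  rw [Finset.mul_sum, ← Equiv.sum_comp (Equiv.inv (Equiv.Perm (Fin 4))) fun τ : Equiv.Perm (Fin 4) =>
      ∏ i, x (σ i) ^ (k.at' i + l.at' (τ i)),
    ← Equiv.sum_comp (Equiv.mulLeft σ) fun π : Equiv.Perm (Fin 4) =>
      (∏ i, x (σ i) ^ k.at' i) * ∏ i, x (π i) ^ l.at' i]
  refine Finset.sum_congr rfl fun τ _ => ?_
  rw [← Equiv.prod_comp τ⁻¹ fun i => x ((Equiv.mulLeft σ τ) i) ^ l.at' i, ← Finset.prod_mul_distrib]
  exact Finset.prod_congr rfl fun i _ => by simp [pow_add]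

/-- Scalar multiple. -/
def svScale (z : ℤ) (L : SV) : SV := L.map fun e => (e.1, z * e.2)

theorem svVal_scale (z : ℤ) (L : SV) (x : Fin 4 → ℝ) : svVal (svScale z L) x = z * svVal L x := by
  simp only [svVal, svScale, List.map_map, ← List.sum_map_mul_left, Function.comp_def]
  exact congrArg List.sum (List.map_congr_left fun e _ => by push_cast; ring)

/-- Collect equal keys. -/
def svNorm : SV → SV
  | [] => []
  | e :: r => svAdd e.1 e.2 (svNorm r)

theorem svVal_norm (x : Fin 4 → ℝ) : ∀ L, svVal (svNorm L) x = svVal L x
  | [] => rfl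
  | e :: r => by simp only [svNorm, svVal_add, svVal_norm x r]; simp [svVal]

/-- Equality test. -/
def svEq (A B : SV) : Bool := (svNorm (A ++ svScale (-1) B)).all fun e => e.2 == 0

theorem svVal_eq_of_svEq {A B : SV} (h : svEq A B = true) (x : Fin 4 → ℝ) :
    svVal A x = svVal B x := by
  simp only [svEq, List.all_eq_true, beq_iff_eq] at h
  have h0 : svVal (svNorm (A ++ svScale (-1) B)) x = 0 :=
    List.sum_eq_zero fun r hr => by
      obtain ⟨e, he, rfl⟩ := List.mem_map.1 hr
      simp [h e he]
  rw [svVal_norm, svVal_append, svVal_scale] at h0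
  push_cast at h0
  linarith

/-- Product. -/
def svMul : SV → SV → SV
  | [], _ => []
  | e :: r, L => svNorm ((L.flatMap fun f => (e.1.mulKeys f.1).map fun m => (m, e.2 * f.2)) ++
      svMul r L)

theorem svVal_mul (x : Fin 4 → ℝ) : ∀ A B, svVal (svMul A B) x = svVal A x * svVal B x
  | [], B => by simp [svMul, svVal]
  | e :: r, B => by
    have h : svVal (B.flatMap fun f => (e.1.mulKeys f.1).map fun m => (m, e.2 * f.2)) x =
        (e.2 : ℝ) * e.1.sym x * svVal B x := by
      induction B with
      | nil => simp [svVal]
      | cons f B ih =>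
        rw [List.flatMap_cons, svVal_append, ih]
        have : svVal ((e.1.mulKeys f.1).map fun m => (m, e.2 * f.2)) x =
            (e.2 : ℝ) * f.2 * (e.1.sym x * f.1.sym x) := by
          rw [Key.sym_mul, svVal, List.map_map, ← List.sum_map_mul_left]
          exact congrArg List.sum (List.map_congr_left fun m _ => by simp)
        rw [this]; simp [svVal]; ring
    rw [svMul, svVal_norm, svVal_append, h, svVal_mul x r B]
    simp [svVal]; ring

/-- Repeated multiplication by the sum. -/
def svPad : ℕ → SV → SV
  | 0, L => L
  | n + 1, L => svPad n (svLift L)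

theorem svVal_pad (x : Fin 4 → ℝ) : ∀ n L,
    svVal (svPad n L) x = (x 0 + x 1 + x 2 + x 3) ^ n * svVal L x
  | 0, L => by simp [svPad]
  | n + 1, L => by rw [svPad, svVal_pad x n, svVal_lift]; ring

/-- A dense vector as a sparse one. -/
def svOf : List Key → List ℕ → SV
  | k :: ks, a :: l => if a == 0 then svOf ks l else (k, (a : ℤ)) :: svOf ks l
  | _, _ => []

theorem svVal_of (x : Fin 4 → ℝ) : ∀ ks l,
    svVal (svOf ks l) x = dotR l (ks.map fun k => k.sym x)
  | [], [] => rfl
  | [], _ :: _ => by simp [svOf, svVal, dotR]
  | _ :: _, [] => by simp [svOf, svVal, dotR]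
  | k :: ks, a :: l => by
    have ih := svVal_of x ks l
    by_cases h : a = 0
    · simp [svOf, h, dotR, ih]
    · simp only [svOf, beq_iff_eq, h, if_false, svVal, List.map_cons, List.sum_cons, dotR]
      simp only [svVal] at ih
      rw [ih]; push_cast; ring

/-- Coordinatewise sum. -/
def vadd : List ℕ → List ℕ → List ℕ
  | a :: as, b :: bs => (a + b) :: vadd as bs
  | [], bs => bs
  | as, [] => as

theorem dotR_vadd : ∀ (a b : List ℕ) (l : List ℝ), dotR (vadd a b) l = dotR a l + dotR b l
  | [], b, l => by simp [vadd, dotR]
  | a :: as, [], l => by simp [vadd, dotR]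
  | a :: as, b :: bs, [] => by simp [vadd, dotR]
  | a :: as, b :: bs, z :: l => by
    simp only [vadd, dotR, dotR_vadd as bs l]; push_cast; ring

/-- A table of vectors. -/
abbrev Tab := List (Key × List ℕ)

/-- Lookup. -/
def tget (k : Key) : Tab → Option (List ℕ)
  | [] => none
  | e :: r => if e.1.eqb k then some e.2 else tget k r

theorem tget_mem {k : Key} {v : List ℕ} : ∀ {T : Tab}, tget k T = some v → (k, v) ∈ T
  | [], h => by simp [tget] at h
  | e :: r, h => by
    by_cases hk : e.1.eqb k = true
    · simp only [tget, hk, if_true, Option.some.injEq] at h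
      obtain rfl := Key.eq_of_eqb hk
      simp [← h]
    · simp only [tget, hk] at h
      exact List.mem_cons_of_mem _ (tget_mem h)

/-- The vector of a sum of keys found in a table. -/
def tsum (T : Tab) : List Key → Option (List ℕ)
  | [] => some []
  | k :: ks =>
    match tget k T, tsum T ks with
    | some a, some b => some (vadd a b)
    | _, _ => none

/-- The table is correct: each entry follows from later ones. -/
def tabOK (D : ℕ) (MU : List Key) : Tab → Bool
  | [] => true
  | e :: r => (if e.1.deg == D then svEq (svOf MU e.2) [(e.1, 1)]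
      else decide (e.1.deg < D) && (match tsum r e.1.bumps with
        | some v => v == e.2
        | none => false) && e.1.bumps.all fun k => k.deg == e.1.deg + 1) && tabOK D MU r

theorem tab_sound {D : ℕ} {MU : List Key} (x : Fin 4 → ℝ) : ∀ {T : Tab}, tabOK D MU T = true →
    ∀ k v, (k, v) ∈ T → k.deg ≤ D ∧
      dotR v (MU.map fun m => m.sym x) = (x 0 + x 1 + x 2 + x 3) ^ (D - k.deg) * k.sym x
  | [], _, k, v, h => by simp at h
  | e :: r, hok, k, v, h => by
    simp only [tabOK, Bool.and_eq_true] at hok
    obtain ⟨he, hr⟩ := hok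
    rcases List.mem_cons.1 h with rfl | h
    · by_cases hd : k.deg = D
      · simp only [hd, beq_self_eq_true, if_true] at he
        refine ⟨hd.le, ?_⟩
        rw [← svVal_of, svVal_eq_of_svEq he]
        simp [svVal, hd]
      · simp only [beq_iff_eq, hd, if_false, Bool.and_eq_true, decide_eq_true_eq,
          List.all_eq_true] at he
        obtain ⟨⟨hlt, hv⟩, hb⟩ := he
        refine ⟨hlt.le, ?_⟩
        obtain ⟨n, hn⟩ := Nat.exists_eq_add_of_lt hlt
        have key : ∀ ks w, (∀ l ∈ ks, l.deg = k.deg + 1) → tsum r ks = some w →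
            dotR w (MU.map fun m => m.sym x) =
              (x 0 + x 1 + x 2 + x 3) ^ n * (ks.map fun l => l.sym x).sum := by
          intro ks
          induction ks with
          | nil => intro w _ hw; simp only [tsum, Option.some.injEq] at hw; simp [← hw, dotR]
          | cons l ks ih =>
            intro w hdeg hw
            simp only [tsum] at hw
            split at hw
            · next a b ha hb =>
              simp only [Option.some.injEq] at hw
              rw [← hw, dotR_vadd, ih b (fun m hm => hdeg m (List.mem_cons_of_mem _ hm)) hb,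
                ((tab_sound x hr l a (tget_mem ha)).2), hdeg l (by simp)]
              simp only [List.map_cons, List.sum_cons, show D - (k.deg + 1) = n by omega]
              ring
            · simp at hw
        split at hv
        · next w hw =>
          obtain rfl : w = v := eq_of_beq hv
          rw [key _ w hb hw, ← Key.sym_mul_sum, show D - k.deg = n + 1 by omega]
          ring
        · simp at hv
    · exact tab_sound x hr k v h

/-- A rank-one term `± c · x ⊗ y`, with the second vector packed. -/
structure Term where
  pos : Bool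
  c : ℕ
  x : List ℕ
  y : ℕ

/-- Value of a term. -/
def Term.val (t : Term) (B : ℕ) (MU : List Key) (As : List ℝ) (v : Fin 4 → ℝ) : ℝ :=
  (if t.pos then 1 else -1) * (t.c : ℝ) * dotR t.x As * vVal B MU t.y v

/-- Drop the first coordinate of every term. -/
def tails (ts : List Term) : List Term := ts.map fun t => ⟨t.pos, t.c, t.x.tail, t.y⟩

/-- The packed contributions of one sign to the first coordinate. -/
def heads (s : Bool) (ts : List Term) : List (ℕ × ℕ) :=
  (ts.filter fun t => t.pos == s).map fun t => (t.c * t.x.headD 0, t.y)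

/-- A list of packed vectors may be combined. -/
def combOK (B m : ℕ) (MU : List Key) (l : List (ℕ × ℕ)) : Bool :=
  decide ((l.map Prod.fst).sum * m < B) && l.all fun e => e.1 == 0 || vSmall B m MU e.2

/-- The second vectors of the terms are small. -/
def smallOK (B m : ℕ) (MU : List Key) (ts : List Term) : Bool :=
  ts.all fun t => vSmall B m MU t.y

/-- The sum of the multipliers leaves room. -/
def roomOK (B m : ℕ) (l : List (ℕ × ℕ)) : Bool := decide ((l.map Prod.fst).sum * m < B)

/-- `g` times the rows equal the sum of the terms. -/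
def rowsOK (B m g : ℕ) (MU : List Key) : List Row → List Term → Bool
  | [], ts => ts.all fun t => t.x.all fun a => a == 0
  | r :: rs, ts =>
    roomOK B m ((g, packList B r.P) :: heads false ts) &&
      roomOK B m ((g, packList B r.N) :: heads true ts) &&
      vSmall B m MU (packList B r.P) && vSmall B m MU (packList B r.N) &&
      vSmall B B MU (packList B r.P) && vSmall B B MU (packList B r.N) &&
      (r.P.all fun a => decide (a < B)) && (r.N.all fun a => decide (a < B)) &&
      (comb ((g, packList B r.P) :: heads false ts) ==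
        comb ((g, packList B r.N) :: heads true ts)) &&
      rowsOK B m g MU rs (tails ts)

theorem dotR_cons (l : List ℕ) (a : ℝ) (r : List ℝ) :
    dotR l (a :: r) = (l.headD 0 : ℕ) * a + dotR l.tail r := by
  cases l <;> simp [dotR]

theorem vVal_combOK {B m : ℕ} {MU : List Key} {l : List (ℕ × ℕ)} (h : combOK B m MU l = true)
    (x : Fin 4 → ℝ) :
    vVal B MU (comb l) x = (l.map fun e => (e.1 : ℝ) * vVal B MU e.2 x).sum := by
  simp only [combOK, Bool.and_eq_true, decide_eq_true_eq, List.all_eq_true, Bool.or_eq_true,
    beq_iff_eq] at h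
  obtain ⟨hb, hs⟩ := h
  set l' := l.filter fun e => !(e.1 == 0) with hl'
  have e1 : comb l = comb l' := by
    rw [hl']; clear hb hs hl'
    induction l with
    | nil => rfl
    | cons e r ih => by_cases he : e.1 = 0 <;> simp [comb, he, ih]
  have e2 : (l.map fun e => (e.1 : ℝ) * vVal B MU e.2 x).sum =
      (l'.map fun e => (e.1 : ℝ) * vVal B MU e.2 x).sum := by
    rw [hl']; clear hb hs hl' e1
    induction l with
    | nil => rfl
    | cons e r ih => by_cases he : e.1 = 0 <;> simp [he, ih]
  rw [e1, e2]
  refine vVal_comb (m := m) x MU l' (fun e he => ?_) (lt_of_le_of_lt ?_ hb)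
  · obtain ⟨h1, h2⟩ := List.mem_filter.1 he
    exact (hs e h1).resolve_left (by simpa using h2)
  · exact Nat.mul_le_mul_right _ (List.Sublist.sum_le_sum (List.filter_sublist.map _) (by simp))

theorem rows_sound {B m g : ℕ} {MU : List Key} (u v : Fin 4 → ℝ) : ∀ (K : List Row) (ts : List Term),
    rowsOK B m g MU K ts = true → smallOK B m MU ts = true →
    (g : ℝ) * formVal K (MU.map Key.pe) u v =
      (ts.map fun t => t.val B MU (K.map fun k => k.A.ev u) v).sum
  | [], ts, _, _ => by
    simp only [formVal, List.map_nil, List.sum_nil, mul_zero]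
    exact (List.sum_eq_zero fun r hr => by
      obtain ⟨t, -, rfl⟩ := List.mem_map.1 hr
      cases hx : t.x <;> simp [Term.val, dotR, hx]).symm
  | r :: rs, ts, h, hs => by
    simp only [rowsOK, Bool.and_eq_true, beq_iff_eq, List.all_eq_true, decide_eq_true_eq] at h
    obtain ⟨⟨⟨⟨⟨⟨⟨⟨⟨hrP, hrN⟩, hmP⟩, hmN⟩, hsP⟩, hsN⟩, haP⟩, haN⟩, heq⟩, hrest⟩ := h
    simp only [smallOK, List.all_eq_true] at hs
    have hheads : ∀ (s : Bool) (p : ℕ), vSmall B m MU p = true →
        roomOK B m ((g, p) :: heads s ts) = true →
        combOK B m MU ((g, p) :: heads s ts) = true := fun s p hp hr => by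
      simp only [combOK, Bool.and_eq_true, List.all_eq_true, Bool.or_eq_true]
      refine ⟨hr, fun e he => Or.inr ?_⟩
      rcases List.mem_cons.1 he with rfl | he
      · exact hp
      · obtain ⟨t, ht, rfl⟩ := List.mem_map.1 he
        exact hs t (List.mem_filter.1 ht).1
    have hP := hheads false _ hmP hrP
    have hN := hheads true _ hmN hrN
    have hs' : smallOK B m MU (tails ts) = true := by
      simp only [smallOK, List.all_eq_true, tails, List.mem_map]
      rintro _ ⟨t, ht, rfl⟩
      exact hs t ht
    have hev : ∀ l : List ℕ, vSmall B B MU (packList B l) = true → (∀ a ∈ l, a < B) →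
        dotR l ((MU.map Key.pe).map fun e => e.ev v) = vVal B MU (packList B l) v := fun l h1 h2 => by
      rw [vVal_packList v MU l h1 h2, List.map_map]; rfl
    have e := congrArg (fun n => vVal B MU n v) heq
    simp only [vVal_combOK hP, vVal_combOK hN, List.map_cons, List.sum_cons] at e
    have ih := rows_sound u v rs (tails ts) hrest hs'
    have hsplit : ∀ ts : List Term,
        (ts.map fun t => t.val B MU ((r :: rs).map fun k => k.A.ev u) v).sum =
          r.A.ev u * (((heads true ts).map fun e => (e.1 : ℝ) * vVal B MU e.2 v).sum -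
            ((heads false ts).map fun e => (e.1 : ℝ) * vVal B MU e.2 v).sum) +
          ((tails ts).map fun t => t.val B MU (rs.map fun k => k.A.ev u) v).sum := by
      intro ts
      induction ts with
      | nil => simp [heads, tails]
      | cons t ts iht =>
        simp only [List.map_cons] at iht
        simp only [List.map_cons, List.sum_cons, iht]
        cases hp : t.pos <;>
          simp [heads, tails, Term.val, hp, dotR_cons] <;> ring
    rw [hsplit, ← ih]
    simp only [formVal, List.map_cons, List.sum_cons, hev _ hsP haP, hev _ hsN haN]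
    linear_combination r.A.ev u * e

end Vale.Agent.P154.Q4
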