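import Vale.Agent.P154.Q4.Chan

/-!
# The node inequality and the limit

Iterating strict subadditivity over the children of a vertex gives
`mag ≤ λ² ∑ magⱼ - c mag₀ mag₁ (mag₀ + mag₁)`, hence a cubic decrease at and below the threshold,
on regular and on Poisson trees.
-/

namespace Vale.Agent.P154.Q4

open Finset Filter Topology

/-- Products of any number of members. -/
theorem pi_bound : ∀ (k : ℕ) (α : Fin k → Type) [∀ j, Fintype (α j)]
    (w : ∀ j, Fin 4 → α j → ℝ), (∀ j, Mem (w j)) →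
      Mem (fun i (ω : ∀ j, α j) => ∏ j, w j i (ω j)) ∧
        cH (fun i (ω : ∀ j, α j) => ∏ j, w j i (ω j)) ≤ ∑ j, cH (w j)
  | 0, α, _, w, _ => by
    let e : (∀ j, α j) ≃ Unit := Equiv.ofUnique _ _
    have h1 : (fun (i : Fin 4) (ω : ∀ j, α j) => ∏ j, w j i (ω j))
        = fun i ω => (fun (_ : Fin 4) (_ : Unit) => (1 : ℝ)) i (e ω) := by
      funext i ω; simp
    rw [h1]
    exact ⟨mem_trivial.relabel e,
      le_of_eq (by rw [cH_equiv e fun (_ : Fin 4) (_ : Unit) => (1 : ℝ), cH_trivial]; simp)⟩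
  | k + 1, α, _, w, hw => by
    obtain ⟨hr, hX⟩ := pi_bound k (fun j => α j.succ) (fun j => w j.succ) fun j => hw j.succ
    let e : (∀ j, α j) ≃ α 0 × (∀ j : Fin k, α j.succ) := (Fin.consEquiv α).symm
    have h1 : (fun (i : Fin 4) (ω : ∀ j, α j) => ∏ j, w j i (ω j))
        = fun i ω => prodChan (w 0)
          (fun i (ω : ∀ j : Fin k, α j.succ) => ∏ j, w j.succ i (ω j)) i (e ω) := by
      funext i ω
      simp [prodChan, e, Fin.consEquiv, Fin.prod_univ_succ, Fin.tail]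
    rw [h1]
    refine ⟨((hw 0).prod hr).relabel e, ?_⟩
    rw [cH_equiv e, Fin.sum_univ_succ]
    linarith [(hw 0).cH_prod_le' hr]

/-- With two members or more the first pair gives a gain. -/
theorem pi_gain (k : ℕ) (α : Fin (k + 2) → Type) [∀ j, Fintype (α j)]
    (w : ∀ j, Fin 4 → α j → ℝ) (hw : ∀ j, Mem (w j)) :
    cH (fun i (ω : ∀ j, α j) => ∏ j, w j i (ω j)) ≤
      (∑ j, cH (w j)) - 1 / 100 * (cH (w 0) * cH (w 1) * (cH (w 0) + cH (w 1))) := by
  obtain ⟨hr, hX⟩ := pi_bound k (fun j => α j.succ.succ) (fun j => w j.succ.succ)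
    fun j => hw j.succ.succ
  let e : (∀ j, α j) ≃ (α 0 × α (0 : Fin (k + 1)).succ) × (∀ j : Fin k, α j.succ.succ) :=
    ((Fin.consEquiv α).symm.trans
      (Equiv.prodCongr (Equiv.refl _) (Fin.consEquiv fun j => α j.succ).symm)).trans
      (Equiv.prodAssoc _ _ _).symm
  have h1 : (fun (i : Fin 4) (ω : ∀ j, α j) => ∏ j, w j i (ω j))
      = fun i ω => prodChan (prodChan (w 0) (w (0 : Fin (k + 1)).succ))
        (fun i (ω : ∀ j : Fin k, α j.succ.succ) => ∏ j, w j.succ.succ i (ω j)) i (e ω) := by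
    funext i ω
    simp [prodChan, e, Fin.consEquiv, Fin.prod_univ_succ, Fin.tail, mul_assoc]
    rfl
  rw [h1, cH_equiv e, Fin.sum_univ_succ, Fin.sum_univ_succ]
  have h2 := ((hw 0).prod (hw (0 : Fin (k + 1)).succ)).cH_prod_le' hr
  have h3 := (hw 0).cH_prod_le (hw (0 : Fin (k + 1)).succ)
  have e1 : cH (w (0 : Fin (k + 1)).succ) = cH (w 1) := by rw [Fin.succ_zero_eq_one]
  rw [e1] at h3 ⊢
  linarith

theorem hV_eq (l : Fin 4 → ℝ) :
    hV l = 4 / 3 * ((∑ i, (l i - (∑ a, l a) / (4 : ℕ)) ^ 2) / ((4 : ℕ) * ∑ a, l a)) := by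
  have h : rS l = 16 * ∑ i, (l i - rs l / 4) ^ 2 := by
    simp only [rS, rs, Fin.sum_univ_four]; ring
  rw [show ∑ a, l a = rs l from Fin.sum_univ_four l, Nat.cast_ofNat, hV, h]
  rcases eq_or_ne (rs l) 0 with h0 | h0
  · simp [h0]
  · generalize ∑ i, (l i - rs l / 4) ^ 2 = A
    field_simp; ring

theorem cH_eq_mag (lam : ℝ) (n : ℕ) (t : Shape n) :
    cH (lik 4 lam n t) = 4 / 3 * mag 4 lam n t := by
  rw [cH, mag, mul_sum]
  refine sum_congr rfl fun ω _ => ?_
  exact hV_eq fun i => lik 4 lam n t i ω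

theorem lik_mem {lam : ℝ} (h0 : 0 ≤ lam) (h1 : lam ≤ 1) :
    ∀ (n : ℕ) (t : Shape n), Mem (lik 4 lam n t)
  | 0, t => by
    have := mem_leaf.relabel (Equiv.refl (Fin 4))
    exact this
  | n + 1, t => by
    have := (pi_bound t.1 (fun j => Obs 4 n (t.2 j))
      (fun j => edgeChan 4 lam (lik 4 lam n (t.2 j)))
      fun j => (lik_mem h0 h1 n (t.2 j)).edge h0 h1).1
    let e : Obs 4 (n + 1) t ≃ ((j : Fin t.1) → Obs 4 n (t.2 j)) := Equiv.refl _
    exact this.relabel e

/-- The gain at a vertex with exactly two children. -/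
noncomputable def gain2 (lam : ℝ) (n : ℕ) (t : Shape (n + 1)) : ℝ :=
  if h : t.1 = 2 then mag 4 lam n (t.2 (Fin.cast h.symm 0)) ^ 2 *
    mag 4 lam n (t.2 (Fin.cast h.symm 1)) else 0

theorem mag_node_eq (lam : ℝ) (n : ℕ) (t : Shape (n + 1)) :
    cH (lik 4 lam (n + 1) t) = cH fun i (ω : (j : Fin t.1) → Obs 4 n (t.2 j)) =>
      ∏ j, edgeChan 4 lam (lik 4 lam n (t.2 j)) i (ω j) :=
  sum_obs_succ t fun ω => hV (col (lik 4 lam (n + 1) t) ω)

theorem mag_node {lam : ℝ} (h0 : 0 ≤ lam) (h1 : lam ≤ 1) (n : ℕ) (t : Shape (n + 1)) :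
    mag 4 lam (n + 1) t ≤ lam ^ 2 * ∑ j, mag 4 lam n (t.2 j) := by
  have := (pi_bound t.1 (fun j => Obs 4 n (t.2 j))
    (fun j => edgeChan 4 lam (lik 4 lam n (t.2 j)))
    fun j => (lik_mem h0 h1 n (t.2 j)).edge h0 h1).2
  rw [← mag_node_eq, cH_eq_mag] at this
  simp only [cH_edge, cH_eq_mag, ← mul_sum] at this
  linarith

theorem mag_node_gain {lam : ℝ} (h0 : 0 ≤ lam) (h1 : lam ≤ 1) (n k : ℕ)
    (c : Fin (k + 2) → Shape n) :
    mag 4 lam (n + 1) ⟨k + 2, c⟩ ≤ lam ^ 2 * ∑ j, mag 4 lam n (c j) -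
      lam ^ 6 / 100 * (mag 4 lam n (c 0) ^ 2 * mag 4 lam n (c 1) +
        mag 4 lam n (c 0) * mag 4 lam n (c 1) ^ 2) := by
  have := pi_gain k (fun j => Obs 4 n (c j)) (fun j => edgeChan 4 lam (lik 4 lam n (c j)))
    fun j => (lik_mem h0 h1 n (c j)).edge h0 h1
  have e := (cH_eq_mag lam (n + 1) _).symm.trans (mag_node_eq lam n ⟨k + 2, c⟩)
  have this := (le_of_eq e).trans this
  simp only [cH_edge, cH_eq_mag, ← mul_sum] at this
  have hh : Adm 4 lam := ⟨by norm_num, le_trans (by norm_num) h0, h1⟩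
  have h00 := mag_nonneg hh n (c 0)
  have h11 := mag_nonneg hh n (c 1)
  have : 0 ≤ lam ^ 6 * (mag 4 lam n (c 0) * mag 4 lam n (c 1) *
      (mag 4 lam n (c 0) + mag 4 lam n (c 1))) := by positivity
  nlinarith

theorem mag_node_two {lam : ℝ} (h0 : 0 ≤ lam) (h1 : lam ≤ 1) (n : ℕ) (t : Shape (n + 1)) :
    mag 4 lam (n + 1) t + lam ^ 6 / 100 * gain2 lam n t ≤
      lam ^ 2 * ∑ j, mag 4 lam n (t.2 j) := by
  obtain ⟨k, c⟩ := t
  rcases eq_or_ne k 2 with rfl | hk
  · have h : mag 4 lam (n + 1) ⟨2, c⟩ ≤ lam ^ 2 * ∑ j, mag 4 lam n (c j) -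
        lam ^ 6 / 100 * (mag 4 lam n (c 0) ^ 2 * mag 4 lam n (c 1) +
          mag 4 lam n (c 0) * mag 4 lam n (c 1) ^ 2) := mag_node_gain h0 h1 n 0 c
    have hh : Adm 4 lam := ⟨by norm_num, le_trans (by norm_num) h0, h1⟩
    have h00 := mag_nonneg hh n (c 0)
    have : 0 ≤ lam ^ 6 / 100 * (mag 4 lam n (c 0) * mag 4 lam n (c 1) ^ 2) :=
      mul_nonneg (by positivity) (mul_nonneg h00 (sq_nonneg _))
    have e : gain2 lam n (⟨2, c⟩ : Shape (n + 1)) =
        mag 4 lam n (c 0) ^ 2 * mag 4 lam n (c 1) := by simp [gain2]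
    simp only [Fin.sum_univ_two] at h ⊢
    rw [e]
    linarith
  · simp only [gain2, hk, dite_false, mul_zero, add_zero]
    exact mag_node h0 h1 n _

/-- A sequence decreasing by a cubic amount tends to zero. -/
theorem tendsto_zero_of_cubic {x : ℕ → ℝ} {c : ℝ} (hc : 0 < c) (hx : ∀ n, 0 ≤ x n)
    (h : ∀ n, x (n + 1) ≤ x n - c * x n ^ 3) : Tendsto x atTop (𝓝 0) := by
  have hanti : Antitone x := antitone_nat_of_succ_le fun n => by
    linarith [h n, mul_nonneg hc.le (pow_nonneg (hx n) 3)]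
  refine tendsto_order.2 ⟨fun b hb => Eventually.of_forall fun n => lt_of_lt_of_le hb (hx n),
    fun b hb => ?_⟩
  by_contra hcon
  have hall : ∀ n, b ≤ x n := fun n => by
    by_contra hlt
    exact hcon (eventually_atTop.2 ⟨n, fun m hm => (hanti hm).trans_lt (not_le.1 hlt)⟩)
  obtain ⟨N, hN⟩ := exists_nat_gt (x 0 / (c * b ^ 3))
  rw [div_lt_iff₀ (by positivity)] at hN
  have hbound : ∀ n : ℕ, x n ≤ x 0 - n * (c * b ^ 3) := by
    intro n
    induction n with
    | zero => simp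
    | succ n ih =>
      have := mul_le_mul_of_nonneg_left (pow_le_pow_left₀ hb.le (hall n) 3) hc.le
      push_cast
      linarith [h n]
  linarith [hbound N, hall N]

theorem regular_tendsto {d : ℕ} (hd : 2 ≤ d) {lam : ℝ} (h0 : 0 ≤ lam) (h1 : lam ≤ 1)
    (hr : (d : ℝ) * lam ^ 2 ≤ 1) : Tendsto (aRegular 4 d lam) atTop (𝓝 0) := by
  have hh : Adm 4 lam := ⟨by norm_num, le_trans (by norm_num) h0, h1⟩
  refine tendsto_aRegular hh ?_
  rcases h0.eq_or_lt with rfl | hpos
  · refine (tendsto_add_atTop_iff_nat 1).1 (tendsto_const_nhds.congr' ?_)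
    refine Eventually.of_forall fun n => (le_antisymm ?_ (mag_nonneg hh _ _)).symm
    exact (mag_node le_rfl h1 n (regular d (n + 1))).trans (le_of_eq (by ring))
  refine tendsto_zero_of_cubic (c := lam ^ 6 / 50) (by positivity)
    (fun n => mag_nonneg hh n _) fun n => ?_
  obtain ⟨k, rfl⟩ := Nat.exists_eq_add_of_le hd
  have e : regular (2 + k) (n + 1) = ⟨2 + k, fun _ => regular (2 + k) n⟩ := rfl
  have h := mag_node_gain h0 h1 n k fun _ => regular (2 + k) n
  simp only [sum_const, card_univ, Fintype.card_fin, nsmul_eq_mul] at h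
  have e2 : (⟨k + 2, fun _ => regular (2 + k) n⟩ : Shape (n + 1)) =
      regular (2 + k) (n + 1) := by
    rw [e, Nat.add_comm k 2]
  rw [e2] at h
  set x := mag 4 lam n (regular (2 + k) n)
  have hx : 0 ≤ x := mag_nonneg hh n _
  have h2 := mul_le_mul_of_nonneg_right hr hx
  push_cast at h h2
  nlinarith

theorem poisson_tendsto {d : ℝ} (hd : 0 < d) {lam : ℝ} (h0 : 0 ≤ lam) (h1 : lam ≤ 1)
    (hr : d * lam ^ 2 ≤ 1) : Tendsto (aPoisson 4 d lam) atTop (𝓝 0) := by
  have hh : Adm 4 lam := ⟨by norm_num, le_trans (by norm_num) h0, h1⟩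
  refine tendsto_aPoisson hh hd.le ?_
  rcases h0.eq_or_lt with rfl | hpos
  · refine (tendsto_add_atTop_iff_nat 1).1 (tendsto_const_nhds.congr' ?_)
    refine Eventually.of_forall fun n => ?_
    unfold magPoisson
    refine ((tsum_congr fun t => ?_).trans tsum_zero).symm
    rw [le_antisymm ((mag_node le_rfl h1 n t).trans (le_of_eq (by ring))) (mag_nonneg hh _ _),
      mul_zero]
  have hp : 0 < poisson d 2 := by unfold poisson; positivity
  refine tendsto_zero_of_cubic (c := lam ^ 6 / 100 * poisson d 2) (by positivity)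
    (magPoisson_nonneg hh hd.le) fun n => ?_
  set m := magPoisson 4 d lam n
  have hw := gwWeight_nonneg hd.le n
  have hm := mag_nonneg hh n
  have hbase := (summable_magPoisson hh hd.le n).hasSum
  have hsq : Summable fun u => gwWeight d n u * mag 4 lam n u ^ 2 :=
    Summable.of_nonneg_of_le (fun u => mul_nonneg (hw u) (sq_nonneg _))
      (fun u => mul_le_mul_of_nonneg_left (pow_le_pow_left₀ (hm u) (mag_le_two hh n u) 2) (hw u))
      ((hasSum_gwWeight hd.le n).summable.mul_right (2 ^ 2))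
  set m2 := ∑' u, gwWeight d n u * mag 4 lam n u ^ 2
  have hm2 : m ^ 2 ≤ m2 := by
    have := hasSum_le (fun u => show gwWeight d n u * mag 4 lam n u * (2 * m) -
        gwWeight d n u * m ^ 2 ≤ gwWeight d n u * mag 4 lam n u ^ 2 by
      nlinarith [mul_nonneg (hw u) (sq_nonneg (mag 4 lam n u - m))])
      ((hbase.mul_right (2 * m)).sub ((hasSum_gwWeight hd.le n).mul_right (m ^ 2))) hsq.hasSum
    change m * (2 * m) - 1 * m ^ 2 ≤ m2 at this
    linarith
  have hlin : HasSum (fun t : Σ k : ℕ, Fin k → Shape n => poisson d t.1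
      * ((∏ j, gwWeight d n (t.2 j)) * ∑ j, mag 4 lam n (t.2 j))) (d * m) := by
    refine hasSum_node (β := Shape n) (fun k => (k : ℝ) * m) (poisson_nonneg hd.le)
      (fun t => mul_nonneg (prod_nonneg fun j _ => hw _) (sum_nonneg fun j _ => hm _))
      (fun k => hasSum_pi_one hw hm (hasSum_gwWeight hd.le n) hbase) ?_
    exact ((hasSum_poisson_mean d).mul_right _).congr_fun fun k => by ring
  have hgain : HasSum (fun t : Σ k : ℕ, Fin k → Shape n => poisson d t.1
      * ((∏ j, gwWeight d n (t.2 j)) * gain2 lam n t)) (poisson d 2 * (m2 * m)) := by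
    refine hasSum_node (β := Shape n) (fun k => if k = 2 then m2 * m else 0)
      (poisson_nonneg hd.le) (fun t => mul_nonneg (prod_nonneg fun j _ => hw _) ?_) (fun k => ?_) ?_
    · unfold gain2
      split
      · exact mul_nonneg (sq_nonneg _) (hm _)
      · exact le_rfl
    · rcases eq_or_ne k 2 with rfl | hk
      · have := hasSum_pi_prod 2
          ![fun u => gwWeight d n u * mag 4 lam n u ^ 2, fun u => gwWeight d n u * mag 4 lam n u]
          ![m2, m] (fun i u => by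
            fin_cases i
            · exact mul_nonneg (hw u) (sq_nonneg _)
            · exact mul_nonneg (hw u) (hm u))
          (fun i => by
            fin_cases i
            · exact hsq.hasSum
            · exact hbase)
        rw [if_pos rfl]
        simp only [Fin.prod_univ_two, Matrix.cons_val_zero, Matrix.cons_val_one] at this
        refine this.congr_fun fun c => ?_
        simp [gain2, Fin.prod_univ_two]
        ring
      · simp only [gain2, hk, dite_false, mul_zero, if_false]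
        exact hasSum_zero
    · refine (hasSum_ite_eq 2 (poisson d 2 * (m2 * m))).congr_fun fun k => ?_
      rcases eq_or_ne k 2 with rfl | hk <;> simp [*]
  have hstep := hasSum_le (fun t => ?_) (summable_magPoisson hh hd.le (n + 1)).hasSum
    ((hlin.mul_left (lam ^ 2)).sub (hgain.mul_left (lam ^ 6 / 100)))
  · change magPoisson 4 d lam (n + 1) ≤ _ at hstep
    have hm0 : 0 ≤ m := magPoisson_nonneg hh hd.le n
    have h2 := mul_le_mul_of_nonneg_right hr hm0
    have h3 := mul_le_mul_of_nonneg_left (mul_le_mul_of_nonneg_right hm2 hm0)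
      (by positivity : 0 ≤ lam ^ 6 / 100 * poisson d 2)
    linarith
  · have h := mul_le_mul_of_nonneg_left (mag_node_two h0 h1 n t) (gwWeight_nonneg hd.le (n + 1) t)
    simp only [gwWeight] at h ⊢
    linarith

/-- The threshold on regular trees. -/
theorem reg_iff {d : ℕ} (hd : 2 ≤ d) {lam : ℝ} (h0 : 0 ≤ lam) (h1 : lam ≤ 1) :
    (Tendsto (aRegular 4 d lam) atTop (𝓝 0) ↔ (d : ℝ) * lam ^ 2 ≤ 1) ∧
      (1 < (d : ℝ) * lam ^ 2 → ∃ c > 0, ∀ n, c ≤ aRegular 4 d lam n) := by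
  have hh : Adm 4 lam := ⟨by norm_num, le_trans (by norm_num) h0, h1⟩
  have key : 1 < (d : ℝ) * lam ^ 2 → ∃ c > 0, ∀ n, c ≤ aRegular 4 d lam n := fun h =>
    ⟨_, ksBound_pos hh h, ksBound_le_aRegular hh (by omega) h⟩
  refine ⟨⟨fun ht => not_lt.1 fun hlt => ?_, regular_tendsto hd h0 h1⟩, key⟩
  obtain ⟨c, hc, hle⟩ := key hlt
  exact hc.not_ge (ge_of_tendsto' ht hle)

/-- The threshold on Poisson Galton-Watson trees. -/
theorem gw_iff {d : ℝ} (hd : 0 < d) {lam : ℝ} (h0 : 0 ≤ lam) (h1 : lam ≤ 1) :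
    (Tendsto (aPoisson 4 d lam) atTop (𝓝 0) ↔ d * lam ^ 2 ≤ 1) ∧
      (1 < d * lam ^ 2 → ∃ c > 0, ∀ n, c ≤ aPoisson 4 d lam n) := by
  have hh : Adm 4 lam := ⟨by norm_num, le_trans (by norm_num) h0, h1⟩
  have key : 1 < d * lam ^ 2 → ∃ c > 0, ∀ n, c ≤ aPoisson 4 d lam n := fun h =>
    ⟨_, ksBound_pos hh h, ksBound_le_aPoisson hh hd h⟩
  refine ⟨⟨fun ht => not_lt.1 fun hlt => ?_, poisson_tendsto hd h0 h1⟩, key⟩
  obtain ⟨c, hc, hle⟩ := key hlt
  exact hc.not_ge (ge_of_tendsto' ht hle)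

end Vale.Agent.P154.Q4
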